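import Vale.Agent.Lib.P089.Interface2

/-!
# P089 F2: the operators `Tel`, `Bel`, `BelS` at a configuration
-/

namespace P089

open scoped Classical

noncomputable section

namespace Setup

variable (St : Setup)

theorem F2_rho_single (χ : St.A →ₗ[ZMod 2] ZMod 2) (g : St.G) (c : ℂ) (f : St.Gm → ℂ)
    (v : St.Gm) : St.rho χ (MonoidAlgebra.single g c) f v =
      c * (sgn (χ (St.actA v (Multiplicative.toAdd g.left))) * f (v * g.right)) := by
  unfold rho
  rw [MonoidAlgebra.lift_single]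
  rfl

theorem F2_rho_A (χ : St.A →ₗ[ZMod 2] ZMod 2) (a : St.A) (c : ℂ) (f : St.Gm → ℂ)
    (v : St.Gm) : St.rho χ (MonoidAlgebra.single (St.ofA a) c) f v =
      c * (sgn (χ (St.actA v a)) * f v) := by
  rw [F2_rho_single]
  change c * (sgn (χ (St.actA v a)) * f (v * 1)) = _
  rw [mul_one]

theorem F2_sgn_zero : sgn 0 = 1 := by simp [sgn]

theorem F2_rho_G (χ : St.A →ₗ[ZMod 2] ZMod 2) (g : St.Gm) (f : St.Gm → ℂ)
    (v : St.Gm) : St.rho χ (MonoidAlgebra.single (St.ofG g) 1) f v = f (v * g) := by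
  rw [F2_rho_single]
  change 1 * (sgn (χ (St.actA v 0)) * f (v * g)) = _
  rw [map_zero, map_zero, F2_sgn_zero, one_mul, one_mul]

theorem F2_sgn_ne {a : ZMod 2} (h : a ≠ 0) : sgn a = -1 := if_neg h

/-- sum of a character over a finite group -/
theorem F2_char {M : Type*} [AddCommGroup M] [Module (ZMod 2) M] [Fintype M]
    (ℓ : M →ₗ[ZMod 2] ZMod 2) :
    ∑ a : M, sgn (ℓ a) = if ∀ a, ℓ a = 0 then (Fintype.card M : ℂ) else 0 := by
  by_cases h : ∀ a, ℓ a = 0
  · rw [if_pos h]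
    have h1 : ∀ a ∈ (Finset.univ : Finset M), sgn (ℓ a) = 1 := fun a _ => by
      rw [h a, F2_sgn_zero]
    rw [Finset.sum_congr rfl h1, Finset.sum_const, Finset.card_univ, nsmul_eq_mul, mul_one]
  · rw [if_neg h]
    push Not at h
    obtain ⟨b, hb⟩ := h
    have h1 : ∑ a : M, sgn (ℓ (a + b)) = ∑ a : M, sgn (ℓ a) :=
      Equiv.sum_comp (Equiv.addRight b) fun a => sgn (ℓ a)
    have h2 : ∑ a : M, sgn (ℓ (a + b)) = - ∑ a : M, sgn (ℓ a) := by
      rw [← Finset.sum_neg_distrib]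
      refine Finset.sum_congr rfl fun a _ => ?_
      rw [map_add, sgn_add, F2_sgn_ne hb, mul_neg_one]
    rw [h2] at h1
    have h3 : (2 : ℂ) * ∑ a : M, sgn (ℓ a) = 0 := by linear_combination -h1
    exact (mul_eq_zero.1 h3).resolve_left two_ne_zero

theorem F2_conf (χ : St.A →ₗ[ZMod 2] ZMod 2) (v : St.Gm) (u : Fin St.k → ZMod 2) :
    χ (Submodule.Quotient.mk (Finsupp.single v u)) = dotp u (St.conf χ v) := by
  have h1 : (Finsupp.single v u : St.Gm →₀ (Fin St.k → ZMod 2)) =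
      ∑ i, u i • Finsupp.single v (Pi.single i 1) := by
    have h2 : u = ∑ i, u i • (Pi.single i 1 : Fin St.k → ZMod 2) := by
      exact pi_eq_sum_univ' u
    conv_lhs => rw [h2]
    rw [← Finsupp.singleAddHom_apply, map_sum]
    refine Finset.sum_congr rfl fun i _ => ?_
    rw [Finsupp.singleAddHom_apply, Finsupp.smul_single]
  have h3 : (Submodule.Quotient.mk (Finsupp.single v u) : St.A) =
      ∑ i, u i • (Submodule.Quotient.mk (Finsupp.single v (Pi.single i 1)) : St.A) := by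
    rw [h1]
    change St.N.mkQ _ = _
    rw [map_sum]
    refine Finset.sum_congr rfl fun i _ => ?_
    rw [map_smul]
    rfl
  rw [h3, map_sum]
  refine Finset.sum_congr rfl fun i _ => ?_
  rw [map_smul]
  rfl

theorem F2_act_beta (v : St.Gm) (u : Fin St.k → ZMod 2) :
    St.actA v (St.beta u) = Submodule.Quotient.mk (Finsupp.single v u) := by
  unfold beta
  rw [actA_mk, shift_single, mul_one]

/-- the pairing with a fixed vector as a linear map -/
def F2_dotl {k : ℕ} (τ : Fin k → ZMod 2) : (Fin k → ZMod 2) →ₗ[ZMod 2] ZMod 2 where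
  toFun u := dotp u τ
  map_add' u v := by
    unfold dotp
    rw [← Finset.sum_add_distrib]
    exact Finset.sum_congr rfl fun i _ => by rw [Pi.add_apply, add_mul]
  map_smul' c u := by
    unfold dotp
    rw [RingHom.id_apply, smul_eq_mul, Finset.mul_sum]
    exact Finset.sum_congr rfl fun i _ => by rw [Pi.smul_apply, smul_eq_mul, mul_assoc]

theorem F2_dotl_apply {k : ℕ} (τ u : Fin k → ZMod 2) : F2_dotl τ u = dotp u τ := rfl

theorem F2_dotl_zero {k : ℕ} (τ : Fin k → ZMod 2) : (∀ u, F2_dotl τ u = 0) ↔ τ = 0 := by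
  constructor
  · intro h
    funext i
    have h1 := h (Pi.single i 1)
    rw [F2_dotl_apply] at h1
    unfold dotp at h1
    rw [Finset.sum_eq_single i] at h1
    · rw [Pi.single_eq_same, one_mul] at h1
      exact h1
    · intro j _ hj
      rw [Pi.single_eq_of_ne hj, zero_mul]
    · intro hi
      exact absurd (Finset.mem_univ i) hi
  · rintro rfl u
    rw [F2_dotl_apply]
    unfold dotp
    exact Finset.sum_eq_zero fun i _ => by rw [Pi.zero_apply, mul_zero]

theorem F2_dotp_add {k : ℕ} (u τ τ' : Fin k → ZMod 2) :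
    dotp u (τ + τ') = dotp u τ + dotp u τ' := by
  unfold dotp
  rw [← Finset.sum_add_distrib]
  exact Finset.sum_congr rfl fun i _ => by rw [Pi.add_apply, mul_add]

theorem F2_add_eq_zero {k : ℕ} (τ τ' : Fin k → ZMod 2) : τ + τ' = 0 ↔ τ = τ' := by
  have key : ∀ a b : ZMod 2, a + b = 0 ↔ a = b := by decide
  constructor
  · intro h
    funext i
    exact (key _ _).1 (congrFun h i)
  · rintro rfl
    funext i
    exact (key _ _).2 rfl

theorem F2_rho_eproj (χ : St.A →ₗ[ZMod 2] ZMod 2) (τ : Fin St.k → ZMod 2) (f : St.Gm → ℂ)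
    (v : St.Gm) : St.rho χ (St.eproj τ) f v = if τ = St.conf χ v then f v else 0 := by
  have h1 : St.rho χ (St.eproj τ) f v =
      ∑ u : Fin St.k → ZMod 2, ((2 : ℂ)⁻¹ ^ St.k * sgn (dotp u τ)) *
        (sgn (χ (St.actA v (St.beta u))) * f v) := by
    unfold eproj
    rw [map_sum, LinearMap.sum_apply, Finset.sum_apply]
    exact Finset.sum_congr rfl fun u _ => St.F2_rho_A χ _ _ f v
  have h2 : ∀ u : Fin St.k → ZMod 2, ((2 : ℂ)⁻¹ ^ St.k * sgn (dotp u τ)) *
        (sgn (χ (St.actA v (St.beta u))) * f v) =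
      (2 : ℂ)⁻¹ ^ St.k * f v * sgn (F2_dotl (τ + St.conf χ v) u) := by
    intro u
    rw [F2_dotl_apply, F2_dotp_add, sgn_add, F2_act_beta, F2_conf]
    ring
  rw [h1, Finset.sum_congr rfl fun u _ => h2 u, ← Finset.mul_sum, F2_char]
  by_cases h : τ = St.conf χ v
  · rw [if_pos h, if_pos ((F2_dotl_zero _).2 ((F2_add_eq_zero _ _).2 h))]
    have h3 : (Fintype.card (Fin St.k → ZMod 2) : ℂ) = 2 ^ St.k := by
      rw [Fintype.card_fun, ZMod.card, Fintype.card_fin]
      push_cast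
      rfl
    rw [h3, inv_pow]
    field_simp
  · rw [if_neg h, if_neg fun h' => h ((F2_add_eq_zero _ _).1 ((F2_dotl_zero _).1 h')), mul_zero]

theorem F2_rho_smul (χ : St.A →ₗ[ZMod 2] ZMod 2) (c : ℂ) (x : MonoidAlgebra ℂ St.G)
    (f : St.Gm → ℂ) (v : St.Gm) : St.rho χ (c • x) f v = c * St.rho χ x f v := by
  rw [map_smul, LinearMap.smul_apply, Pi.smul_apply, smul_eq_mul]

theorem F2_rho_mul (χ : St.A →ₗ[ZMod 2] ZMod 2) (x y : MonoidAlgebra ℂ St.G)
    (f : St.Gm → ℂ) (v : St.Gm) : St.rho χ (x * y) f v = St.rho χ x (St.rho χ y f) v := by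
  rw [map_mul]
  rfl

theorem F2_rho_sum (χ : St.A →ₗ[ZMod 2] ZMod 2) {I : Type*} (s : Finset I)
    (x : I → MonoidAlgebra ℂ St.G) (f : St.Gm → ℂ) (v : St.Gm) :
    St.rho χ (∑ i ∈ s, x i) f v = ∑ i ∈ s, St.rho χ (x i) f v := by
  rw [map_sum, LinearMap.sum_apply, Finset.sum_apply]

theorem F2_rho_zero (χ : St.A →ₗ[ZMod 2] ZMod 2) (f : St.Gm → ℂ) (v : St.Gm) :
    St.rho χ 0 f v = 0 := by
  rw [map_zero]
  rfl

theorem F2_rho_triple (χ : St.A →ₗ[ZMod 2] ZMod 2) (s : St.S) (τ τ' : Fin St.k → ZMod 2)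
    (f : St.Gm → ℂ) (v : St.Gm) :
    St.rho χ (St.eproj τ' * MonoidAlgebra.single (St.ofG (gen _ s)) 1 * St.eproj τ) f v =
      if τ' = St.conf χ v then
        (if τ = St.conf χ (v * gen _ s) then f (v * gen _ s) else 0) else 0 := by
  rw [F2_rho_mul, F2_rho_mul, F2_rho_eproj, F2_rho_G, F2_rho_eproj]

theorem F2_Tel (χ : St.A →ₗ[ZMod 2] ZMod 2) (f : St.Gm → ℂ) (v : St.Gm) :
    St.rho χ St.Tel f v = (if (St.om χ v).isSome then (St.d : ℂ) else 1) * f v -
      ∑ s, if link (cay _) (St.om χ) v s then f (cay _ v s) else 0 := by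
  unfold Tel
  have hsub : ∀ x y : MonoidAlgebra ℂ St.G, St.rho χ (x - y) f v =
      St.rho χ x f v - St.rho χ y f v := fun x y => by
    rw [map_sub]
    rfl
  rw [hsub, F2_rho_sum, F2_rho_sum]
  congr 1
  · rw [Finset.sum_eq_single (St.conf χ v)]
    · rw [F2_rho_smul, F2_rho_eproj, if_pos rfl]
      rfl
    · intro τ _ hτ
      rw [F2_rho_smul, F2_rho_eproj, if_neg hτ, mul_zero]
    · intro h
      exact absurd (Finset.mem_univ _) h
  · refine Finset.sum_congr rfl fun s _ => ?_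
    rw [F2_rho_sum, Finset.sum_eq_single (St.conf χ (v * gen _ s))]
    · rw [F2_rho_sum, Finset.sum_eq_single (St.conf χ v)]
      · by_cases h : link (cay _) (St.om χ) v s
        · rw [if_pos h, if_pos ⟨h.2, h.1⟩, F2_rho_triple, if_pos rfl, if_pos rfl]
          rfl
        · rw [if_neg h, if_neg fun h' => h ⟨h'.2, h'.1⟩, F2_rho_zero]
      · intro τ' _ hτ'
        by_cases h : (∃ t, St.dec (St.conf χ (v * gen _ s)) = some t ∧ s ∈ t) ∧
            (∃ t, St.dec τ' = some t ∧ s ∈ t)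
        · rw [if_pos h, F2_rho_triple, if_neg hτ']
        · rw [if_neg h, F2_rho_zero]
      · intro h
        exact absurd (Finset.mem_univ _) h
    · intro τ _ hτ
      rw [F2_rho_sum]
      refine Finset.sum_eq_zero fun τ' _ => ?_
      by_cases h : (∃ t, St.dec τ = some t ∧ s ∈ t) ∧ (∃ t, St.dec τ' = some t ∧ s ∈ t)
      · rw [if_pos h, F2_rho_triple, if_neg hτ, ite_self]
      · rw [if_neg h, F2_rho_zero]
    · intro h
      exact absurd (Finset.mem_univ _) h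

/-- the functional `a ↦ χ (v a) + τ_n a` on the finite space of the copy -/
def F2_ell (χ : St.A →ₗ[ZMod 2] ZMod 2) (v : St.Gm) (n : ℕ) :
    St.Acopy n →ₗ[ZMod 2] ZMod 2 :=
  (St.tau n + χ ∘ₗ (St.actA v).toLinearMap) ∘ₗ (St.Acopy n).subtype

theorem F2_rho_Eel (E : EProps St) (χ : St.A →ₗ[ZMod 2] ZMod 2) (n : ℕ) (f : St.Gm → ℂ)
    (v : St.Gm) : St.rho χ (St.Eel n) f v =
      if (∀ z ∈ St.Fm.X n, St.om χ (v * St.pos n z) = some (St.Fm.ty z)) then f v else 0 := by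
  have := E.fin n
  let _ : Fintype (St.Acopy n) := Fintype.ofFinite _
  have h1 : St.Eel n = ∑ a : St.Acopy n,
      MonoidAlgebra.single (St.ofA a) (((Nat.card (St.Acopy n) : ℂ))⁻¹ * sgn (St.tau n a)) := by
    unfold Eel
    rw [← finsum_eq_sum_of_fintype]
    exact (finsum_set_coe_eq_finsum_mem (St.Acopy n : Set St.A)).symm
  have h2 : ∀ a : St.Acopy n, St.rho χ (MonoidAlgebra.single (St.ofA a)
      (((Nat.card (St.Acopy n) : ℂ))⁻¹ * sgn (St.tau n a))) f v =
      ((Nat.card (St.Acopy n) : ℂ))⁻¹ * f v * sgn (St.F2_ell χ v n a) := by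
    intro a
    rw [F2_rho_A]
    have h3 : St.F2_ell χ v n a = St.tau n a + χ (St.actA v a) := rfl
    rw [h3, sgn_add]
    ring
  rw [h1, F2_rho_sum, Finset.sum_congr rfl fun a _ => h2 a, ← Finset.mul_sum, F2_char]
  have key : ∀ a b : ZMod 2, a + b = 0 ↔ b = a := by decide
  have h4 : (∀ a, St.F2_ell χ v n a = 0) ↔
      ∀ z ∈ St.Fm.X n, St.om χ (v * St.pos n z) = some (St.Fm.ty z) := by
    rw [E.tau_iff χ v n]
    constructor
    · intro h a ha
      exact (key _ _).1 (h ⟨a, ha⟩)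
    · intro h a
      exact (key _ _).2 (h a.1 a.2)
  by_cases h : ∀ z ∈ St.Fm.X n, St.om χ (v * St.pos n z) = some (St.Fm.ty z)
  · rw [if_pos h, if_pos (h4.2 h)]
    have h5 : (Nat.card (St.Acopy n) : ℂ) ≠ 0 := by
      exact_mod_cast (Nat.card_pos (α := St.Acopy n)).ne'
    rw [← Nat.card_eq_fintype_card]
    field_simp
  · rw [if_neg h, if_neg fun h' => h (h4.1 h'), mul_zero]

theorem F2_Bel (E : EProps St) (χ : St.A →ₗ[ZMod 2] ZMod 2) (f : St.Gm → ℂ)
    (v : St.Gm) (φ : ℕ → St.Fm.P → ℝ) (n : ℕ) : St.rho χ (St.Bel φ n) f v =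
      if (∀ z ∈ St.Fm.X n, St.om χ (v * St.pos n z) = some (St.Fm.ty z)) then
        ∑ y ∈ St.Fm.X n, ((φ n y : ℝ) : ℂ) * f (v * St.pos n y) else 0 := by
  unfold Bel
  rw [F2_rho_sum]
  have h1 : ∀ y ∈ St.Fm.X n, St.rho χ (((φ n y : ℝ) : ℂ) •
      (St.Eel n * MonoidAlgebra.single (St.ofG (St.pos n y)) 1)) f v =
      ((φ n y : ℝ) : ℂ) * if (∀ z ∈ St.Fm.X n, St.om χ (v * St.pos n z) = some (St.Fm.ty z)) then
        f (v * St.pos n y) else 0 := by
    intro y _
    rw [F2_rho_smul, F2_rho_mul, F2_rho_Eel St E, F2_rho_G]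
  rw [Finset.sum_congr rfl h1]
  by_cases h : ∀ z ∈ St.Fm.X n, St.om χ (v * St.pos n z) = some (St.Fm.ty z)
  · rw [if_pos h]
    exact Finset.sum_congr rfl fun y _ => by rw [if_pos h]
  · rw [if_neg h]
    exact Finset.sum_eq_zero fun y _ => by rw [if_neg h, mul_zero]

theorem F2_BelS (E : EProps St) (χ : St.A →ₗ[ZMod 2] ZMod 2) (f : St.Gm → ℂ)
    (v : St.Gm) (φ : ℕ → St.Fm.P → ℝ) (n : ℕ) : St.rho χ (St.BelS φ n) f v =
      ∑ y ∈ St.Fm.X n, ((φ n y : ℝ) : ℂ) *
        if (∀ z ∈ St.Fm.X n, St.om χ (v * (St.pos n y)⁻¹ * St.pos n z) = some (St.Fm.ty z)) then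
          f (v * (St.pos n y)⁻¹) else 0 := by
  unfold BelS
  rw [F2_rho_sum]
  refine Finset.sum_congr rfl fun y _ => ?_
  rw [F2_rho_smul, F2_rho_mul, F2_rho_G, F2_rho_Eel St E]

end Setup

theorem partF2 : PartF2 := fun St E χ f v =>
  ⟨St.F2_Tel χ f v, fun φ n => ⟨St.F2_Bel E χ f v φ n, St.F2_BelS E χ f v φ n⟩⟩

end

end P089
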