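import Vale.Agent.Lib.P089.Interface2

/-!
# P089, part F4: the abstract lemma (sum of orthogonal spectral projections below a gap)
-/

namespace P089

namespace F4

open Polynomial

section proj

variable {H : Type} [NormedAddCommGroup H] [InnerProductSpace ℂ H] [CompleteSpace H]
  {P : ℕ → H →L[ℂ] H}

/-- the hypotheses on the projections -/
structure OP (P : ℕ → H →L[ℂ] H) : Prop where
  sym : ∀ n x y, inner ℂ (P n x) y = inner ℂ x (P n y)
  idem : ∀ n x, P n (P n x) = P n x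
  orth : ∀ n m x, n ≠ m → P n (P m x) = 0

theorem OP.inner_ne (h : OP P) {n m : ℕ} (hnm : n ≠ m) (x y : H) :
    inner ℂ (P n x) (P m y) = 0 := by
  rw [h.sym, h.orth n m y hnm, inner_zero_right]

theorem OP.norm_sq (h : OP P) (n : ℕ) (x : H) : ‖P n x‖ ^ 2 = (inner ℂ (P n x) x).re := by
  have h1 : inner ℂ (P n x) x = inner ℂ (P n x) (P n x) := by
    conv_lhs => rw [← h.idem n x, h.sym]
  rw [h1]
  have := inner_self_eq_norm_sq (𝕜 := ℂ) (P n x)
  simpa using this.symm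

theorem OP.norm_sum (h : OP P) (s : Finset ℕ) (x : H) :
    ‖∑ n ∈ s, P n x‖ ^ 2 = ∑ n ∈ s, ‖P n x‖ ^ 2 := by
  induction s using Finset.induction_on with
  | empty => simp
  | insert a s ha ih =>
    rw [Finset.sum_insert ha, Finset.sum_insert ha, ← ih]
    have h0 : inner ℂ (P a x) (∑ n ∈ s, P n x) = 0 := by
      rw [inner_sum]
      refine Finset.sum_eq_zero fun n hn => h.inner_ne ?_ x x
      rintro rfl
      exact ha hn
    have := norm_add_sq_eq_norm_sq_add_norm_sq_of_inner_eq_zero _ _ h0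
    nlinarith [this]

theorem OP.norm_sum_le (h : OP P) (s : Finset ℕ) (x : H) : ‖∑ n ∈ s, P n x‖ ≤ ‖x‖ := by
  have h1 := h.norm_sum s x
  have h2 : ∑ n ∈ s, ‖P n x‖ ^ 2 = (inner ℂ (∑ n ∈ s, P n x) x).re := by
    rw [sum_inner, Complex.re_sum]
    exact Finset.sum_congr rfl fun n _ => h.norm_sq n x
  have h3 : (inner ℂ (∑ n ∈ s, P n x) x).re ≤ ‖∑ n ∈ s, P n x‖ * ‖x‖ :=
    (Complex.re_le_norm _).trans (norm_inner_le_norm _ _)
  rw [← h2, ← h1] at h3
  rcases (norm_nonneg (∑ n ∈ s, P n x)).eq_or_lt with h4 | h4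
  · rw [← h4]; exact norm_nonneg x
  · nlinarith

theorem OP.bessel (h : OP P) (s : Finset ℕ) (x : H) : ∑ n ∈ s, ‖P n x‖ ^ 2 ≤ ‖x‖ ^ 2 := by
  rw [← h.norm_sum s x]
  exact pow_le_pow_left₀ (norm_nonneg _) (h.norm_sum_le s x) 2

theorem OP.summable_sq (h : OP P) (x : H) : Summable fun n => ‖P n x‖ ^ 2 :=
  summable_of_sum_le (fun _ => sq_nonneg _) fun s => h.bessel s x

theorem OP.summable (h : OP P) (x : H) : Summable fun n => P n x := by
  rw [summable_iff_vanishing_norm]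
  intro ε hε
  obtain ⟨s, hs⟩ := summable_iff_vanishing_norm.mp (h.summable_sq x) (ε ^ 2) (by positivity)
  refine ⟨s, fun t ht => ?_⟩
  have h1 := hs t ht
  rw [← h.norm_sum t x, Real.norm_of_nonneg (sq_nonneg _)] at h1
  exact lt_of_pow_lt_pow_left₀ 2 hε.le h1

/-- the sum of the projections -/
theorem OP.exists_Q (h : OP P) : ∃ Q : H →L[ℂ] H, ∀ x, HasSum (fun n => P n x) (Q x) := by
  have hb : ∀ x, ‖∑' n, P n x‖ ≤ 1 * ‖x‖ := by
    intro x
    rw [one_mul]
    refine le_of_tendsto' ((continuous_norm.tendsto _).comp (h.summable x).hasSum) fun s => ?_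
    exact h.norm_sum_le s x
  refine ⟨LinearMap.mkContinuous
    { toFun := fun x => ∑' n, P n x
      map_add' := fun x y => by
        rw [← (h.summable x).tsum_add (h.summable y)]
        exact tsum_congr fun n => map_add _ _ _
      map_smul' := fun c x => by
        rw [RingHom.id_apply, ← (h.summable x).tsum_const_smul c]
        exact tsum_congr fun n => map_smul _ _ _ } 1 hb, fun x => ?_⟩
  exact (h.summable x).hasSum

end proj

section main

variable {H : Type} [NormedAddCommGroup H] [InnerProductSpace ℂ H] [CompleteSpace H]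
  {P : ℕ → H →L[ℂ] H} {Q : H →L[ℂ] H}

theorem Q_sym (h : OP P) (hQ : ∀ x, HasSum (fun n => P n x) (Q x)) (x y : H) :
    inner ℂ (Q x) y = inner ℂ x (Q y) := by
  have h1 : HasSum (fun n => inner ℂ (P n x) y) (inner ℂ (Q x) y) := by
    have := ((innerSL ℂ y).hasSum (hQ x)).star
    simpa using this
  have h2 : HasSum (fun n => inner ℂ x (P n y)) (inner ℂ x (Q y)) :=
    (innerSL ℂ x).hasSum (hQ y)
  have h3 : (fun n => inner ℂ (P n x) y) = fun n => inner ℂ x (P n y) := by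
    funext n
    exact h.sym n x y
  rw [h3] at h1
  exact h1.unique h2

theorem PQ (h : OP P) (hQ : ∀ x, HasSum (fun n => P n x) (Q x)) (m : ℕ) (x : H) :
    P m (Q x) = P m x := by
  have h1 : HasSum (fun n => P m (P n x)) (P m (Q x)) := (P m).hasSum (hQ x)
  have h2 : HasSum (fun n => P m (P n x)) (P m (P m x)) := by
    refine hasSum_single m fun n hn => ?_
    exact h.orth m n x hn.symm
  rw [h1.unique h2, h.idem]

theorem QP (h : OP P) (hQ : ∀ x, HasSum (fun n => P n x) (Q x)) (m : ℕ) (x : H) :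
    Q (P m x) = P m x := by
  have h2 : HasSum (fun n => P n (P m x)) (P m (P m x)) :=
    hasSum_single m fun n hn => h.orth n m x hn
  rw [(hQ (P m x)).unique h2, h.idem]

theorem QQ (h : OP P) (hQ : ∀ x, HasSum (fun n => P n x) (Q x)) (x : H) : Q (Q x) = Q x := by
  have h1 : HasSum (fun n => P n x) (Q (Q x)) := by
    have := hQ (Q x)
    simpa only [PQ h hQ] using this
  exact h1.unique (hQ x)

theorem Q_hasSum (h : OP P) (hQ : ∀ x, HasSum (fun n => P n x) (Q x)) (x : H) :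
    HasSum (fun n => ‖P n x‖ ^ 2) (inner ℂ (Q x) x).re := by
  have h2 : HasSum (fun n => inner ℂ x (P n x)) (inner ℂ x (Q x)) :=
    (innerSL ℂ x).hasSum (hQ x)
  have h3 := Complex.hasSum_re h2
  rw [Q_sym h hQ]
  have e : (fun n => ‖P n x‖ ^ 2) = fun n => (inner ℂ x (P n x)).re := by
    funext n
    rw [h.norm_sq, h.sym]
  rw [e]
  exact h3

theorem Q_norm (h : OP P) (hQ : ∀ x, HasSum (fun n => P n x) (Q x)) (x : H) :
    (inner ℂ (Q x) x).re = ‖Q x‖ ^ 2 := by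
  have h1 : inner ℂ (Q x) x = inner ℂ (Q x) (Q x) := by
    conv_lhs => rw [← QQ h hQ x, Q_sym h hQ]
  rw [h1]
  have := inner_self_eq_norm_sq (𝕜 := ℂ) (Q x)
  simpa using this

end main

section poly

variable {H : Type} [NormedAddCommGroup H] [InnerProductSpace ℂ H] [CompleteSpace H]

theorem aeval_apply (T : H →L[ℂ] H) (p : ℝ[X]) (v : H) :
    (aeval T p) v = ∑ i ∈ Finset.range (p.natDegree + 1), p.coeff i • (T ^ i) v := by
  rw [Polynomial.aeval_eq_sum_range, sum_apply]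
  rfl

theorem pow_eig {T : H →L[ℂ] H} {l : ℝ} {v : H} (h : T v = (l : ℂ) • v) (i : ℕ) :
    (T ^ i) v = ((l ^ i : ℝ) : ℂ) • v := by
  induction i with
  | zero => simp
  | succ i ih =>
    rw [pow_succ', mul_apply_eq_comp, ih, map_smul, h, smul_smul]
    congr 1
    push_cast
    ring

theorem aeval_eig {T : H →L[ℂ] H} {l : ℝ} {v : H} (h : T v = (l : ℂ) • v) (p : ℝ[X]) :
    (aeval T p) v = ((p.eval l : ℝ) : ℂ) • v := by
  rw [aeval_apply, Polynomial.eval_eq_sum_range, Complex.ofReal_sum, Finset.sum_smul]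
  refine Finset.sum_congr rfl fun i _ => ?_
  rw [pow_eig h, Complex.ofReal_mul, mul_smul, Complex.coe_smul, Complex.coe_smul]

theorem aeval_congr {T T' Q : H →L[ℂ] H} (h1 : ∀ x, Q x = 0 → T x = T' x)
    (h2 : ∀ x, Q x = 0 → Q (T x) = 0) (p : ℝ[X]) (x : H) (hx : Q x = 0) :
    (aeval T p) x = (aeval T' p) x := by
  have key : ∀ i : ℕ, (T ^ i) x = (T' ^ i) x ∧ Q ((T ^ i) x) = 0 := by
    intro i
    induction i with
    | zero => simpa using hx
    | succ i ih =>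
      rw [pow_succ', pow_succ', mul_apply_eq_comp, mul_apply_eq_comp,
        ← ih.1]
      exact ⟨h1 _ ih.2, h2 _ ih.2⟩
  rw [aeval_apply, aeval_apply]
  exact Finset.sum_congr rfl fun i _ => by rw [(key i).1]

theorem aeval_mem {T : H →L[ℂ] H} (Al : Submodule ℂ (H →L[ℂ] H)) (h1 : 1 ∈ Al)
    (hm : ∀ a ∈ Al, ∀ b ∈ Al, a * b ∈ Al) (hT : T ∈ Al) (p : ℝ[X]) : aeval T p ∈ Al := by
  have hp : ∀ i : ℕ, T ^ i ∈ Al := by
    intro i
    induction i with
    | zero => simpa using h1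
    | succ i ih =>
      rw [pow_succ]
      exact hm _ ih _ hT
  rw [Polynomial.aeval_eq_sum_range]
  refine Al.sum_mem fun i _ => ?_
  have : p.coeff i • T ^ i = ((p.coeff i : ℝ) : ℂ) • T ^ i := (Complex.coe_smul _ _).symm
  rw [this]
  exact Al.smul_mem _ (hp i)

theorem spec_le {T : H →L[ℂ] H} {x : ℝ} (hx : x ∈ spectrum ℝ T) :
    |x| ≤ ‖T‖ * ‖(1 : H →L[ℂ] H)‖ := by
  have := spectrum.norm_le_norm_mul_of_mem hx
  rwa [Real.norm_eq_abs] at this

theorem cfc_near {T : H →L[ℂ] H} (hT : IsSelfAdjoint T) {f : ℝ → ℝ} (hf : Continuous f) {M δ : ℝ}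
    (hM : ‖T‖ * ‖(1 : H →L[ℂ] H)‖ ≤ M) (hδ : 0 ≤ δ) (p : ℝ[X])
    (hp : ∀ x ∈ Set.Icc (-M) M, |p.eval x - f x| < δ) : ‖cfc f T - aeval T p‖ ≤ δ := by
  rw [← cfc_polynomial p T hT, ← cfc_sub f (fun x => p.eval x) T hf.continuousOn
    (by fun_prop)]
  refine norm_cfc_le hδ fun x hx => ?_
  have h1 := (spec_le hx).trans hM
  have h2 := hp x (abs_le.mp h1)
  rw [Real.norm_eq_abs, abs_sub_comm]
  exact h2.le

end poly

section fin

variable {H : Type} [NormedAddCommGroup H] [InnerProductSpace ℂ H] [CompleteSpace H]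

/-- the cut-off function -/
noncomputable def cut (ε c0 : ℝ) (x : ℝ) : ℝ := max 0 (min 1 ((c0 - x) / (c0 - ε)))

theorem cut_cont (ε c0 : ℝ) : Continuous (cut ε c0) := by
  unfold cut
  fun_prop

theorem cut_one {ε c0 x : ℝ} (h : ε < c0) (hx : x ≤ ε) : cut ε c0 x = 1 := by
  unfold cut
  have : 1 ≤ (c0 - x) / (c0 - ε) := by
    rw [le_div_iff₀ (by linarith)]
    linarith
  rw [min_eq_left this]
  norm_num

theorem cut_zero {ε c0 x : ℝ} (h : ε < c0) (hx : c0 ≤ x) : cut ε c0 x = 0 := by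
  unfold cut
  have : (c0 - x) / (c0 - ε) ≤ 0 := div_nonpos_of_nonpos_of_nonneg (by linarith) (by linarith)
  rw [max_eq_left]
  exact (min_le_right _ _).trans this

theorem eq_zero_of_le {E : Type} [NormedAddCommGroup E] (v : E) (C : ℝ) (hC : 0 ≤ C)
    (h : ∀ δ : ℝ, 0 < δ → ‖v‖ ≤ δ * C) : v = 0 := by
  rw [← norm_le_zero_iff]
  refine le_of_forall_pos_le_add fun e he => ?_
  have h1 := h (e / (C + 1)) (by positivity)
  have h2 : e / (C + 1) * C ≤ e := by
    rw [div_mul_eq_mul_div, div_le_iff₀ (by linarith)]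
    nlinarith
  linarith

/-- the spectral projection is the sum of the projections -/
theorem cfc_eq {P : ℕ → H →L[ℂ] H} {Q T T' : H →L[ℂ] H}
    (hQ : ∀ x, HasSum (fun n => P n x) (Q x)) (hQQ : ∀ x, Q (Q x) = Q x)
    (hT : IsSelfAdjoint T) (hT' : IsSelfAdjoint T') {ε c0 : ℝ} {lm : ℕ → ℝ}
    (hl0 : ∀ n, 0 ≤ lm n) (hl : ∀ n, lm n ≤ ε)
    (hε : ε < c0) (hTP : ∀ n x, T (P n x) = (lm n : ℂ) • P n x)
    (h1 : ∀ x, Q x = 0 → T x = T' x) (h2 : ∀ x, Q x = 0 → Q (T x) = 0)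
    (hs : ∀ x ∈ spectrum ℝ T', c0 ≤ x) : cfc (cut ε c0) T = Q := by
  set M : ℝ := max (‖T‖ * ‖(1 : H →L[ℂ] H)‖) (max (‖T'‖ * ‖(1 : H →L[ℂ] H)‖) c0) with hM
  have hM1 : ‖T‖ * ‖(1 : H →L[ℂ] H)‖ ≤ M := le_max_left _ _
  have hM2 : ‖T'‖ * ‖(1 : H →L[ℂ] H)‖ ≤ M := (le_max_left _ _).trans (le_max_right _ _)
  have hM3 : c0 ≤ M := (le_max_right _ _).trans (le_max_right _ _)
  have hz : cfc (cut ε c0) T' = 0 := by
    have : cfc (cut ε c0) T' = cfc (fun _ : ℝ => (0 : ℝ)) T' :=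
      cfc_congr fun x hx => cut_zero hε (hs x hx)
    rw [this, cfc_const_zero]
  have hap : ∀ δ : ℝ, 0 < δ → ∃ p : ℝ[X], (∀ x ∈ Set.Icc (-M) M, |p.eval x - cut ε c0 x| < δ) ∧
      ‖cfc (cut ε c0) T - aeval T p‖ ≤ δ ∧ ‖aeval T' p‖ ≤ δ := by
    intro δ hδ
    obtain ⟨p, hp⟩ := exists_polynomial_near_of_continuousOn (-M) M (cut ε c0)
      (cut_cont ε c0).continuousOn δ hδ
    refine ⟨p, hp, cfc_near hT (cut_cont ε c0) hM1 hδ.le p hp, ?_⟩
    have := cfc_near hT' (cut_cont ε c0) hM2 hδ.le p hp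
    rwa [hz, zero_sub, norm_neg] at this
  -- on the ranges
  have hP : ∀ n x, cfc (cut ε c0) T (P n x) = P n x := by
    intro n x
    rw [← sub_eq_zero]
    refine eq_zero_of_le _ (2 * ‖P n x‖) (by positivity) fun δ hδ => ?_
    obtain ⟨p, hp, hp1, hp2⟩ := hap δ hδ
    have e1 := aeval_eig (hTP n x) p
    have hn : lm n ∈ Set.Icc (-M) M := by
      have := hl0 n
      have := hl n
      constructor <;> linarith
    have e2 := hp _ hn
    rw [cut_one hε (hl n)] at e2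
    have e3 : cfc (cut ε c0) T (P n x) - P n x = (cfc (cut ε c0) T - aeval T p) (P n x) +
        (((p.eval (lm n) - 1 : ℝ) : ℂ) • P n x) := by
      rw [sub_apply, e1]
      push_cast
      rw [sub_smul, one_smul]
      abel
    rw [e3]
    refine (norm_add_le _ _).trans ?_
    have e4 := (cfc (cut ε c0) T - aeval T p).le_opNorm (P n x)
    have e5 : ‖(((p.eval (lm n) - 1 : ℝ) : ℂ) • P n x)‖ ≤ δ * ‖P n x‖ := by
      rw [norm_smul, Complex.norm_real, Real.norm_eq_abs]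
      exact mul_le_mul_of_nonneg_right e2.le (norm_nonneg _)
    have e6 : ‖cfc (cut ε c0) T - aeval T p‖ * ‖P n x‖ ≤ δ * ‖P n x‖ :=
      mul_le_mul_of_nonneg_right hp1 (norm_nonneg _)
    linarith
  have hR : ∀ x, cfc (cut ε c0) T (Q x) = Q x := by
    intro x
    have e1 : HasSum (fun n => cfc (cut ε c0) T (P n x)) (cfc (cut ε c0) T (Q x)) :=
      (cfc (cut ε c0) T).hasSum (hQ x)
    simp only [hP] at e1
    exact e1.unique (hQ x)
  have hN : ∀ x, Q x = 0 → cfc (cut ε c0) T x = 0 := by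
    intro x hx
    refine eq_zero_of_le _ (2 * ‖x‖) (by positivity) fun δ hδ => ?_
    obtain ⟨p, hp, hp1, hp2⟩ := hap δ hδ
    have e1 := aeval_congr h1 h2 p x hx
    have e3 : cfc (cut ε c0) T x = (cfc (cut ε c0) T - aeval T p) x + aeval T' p x := by
      rw [sub_apply, e1]
      abel
    rw [e3]
    refine (norm_add_le _ _).trans ?_
    have e4 := (cfc (cut ε c0) T - aeval T p).le_opNorm x
    have e5 := (aeval T' p).le_opNorm x
    have e6 : ‖cfc (cut ε c0) T - aeval T p‖ * ‖x‖ ≤ δ * ‖x‖ :=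
      mul_le_mul_of_nonneg_right hp1 (norm_nonneg _)
    have e7 : ‖aeval T' p‖ * ‖x‖ ≤ δ * ‖x‖ := mul_le_mul_of_nonneg_right hp2 (norm_nonneg _)
    linarith
  refine ContinuousLinearMap.ext fun x => ?_
  have e : x = Q x + (x - Q x) := by abel
  conv_lhs => rw [e, map_add, hR, hN (x - Q x) (by rw [map_sub, hQQ, sub_self]), add_zero]

/-- the spectral projection is in every closed algebra with `T` -/
theorem cfc_mem {T : H →L[ℂ] H} (hT : IsSelfAdjoint T) {f : ℝ → ℝ} (hf : Continuous f)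
    (Al : Submodule ℂ (H →L[ℂ] H)) (hc : IsClosed (Al : Set (H →L[ℂ] H))) (h1 : 1 ∈ Al)
    (hm : ∀ a ∈ Al, ∀ b ∈ Al, a * b ∈ Al) (hTA : T ∈ Al) : cfc f T ∈ Al := by
  have : cfc f T ∈ closure (Al : Set (H →L[ℂ] H)) := by
    rw [Metric.mem_closure_iff]
    intro e he
    obtain ⟨p, hp⟩ := exists_polynomial_near_of_continuousOn (-(‖T‖ * ‖(1 : H →L[ℂ] H)‖))
      (‖T‖ * ‖(1 : H →L[ℂ] H)‖) f hf.continuousOn (e / 2) (by positivity)
    refine ⟨aeval T p, aeval_mem Al h1 hm hTA p, ?_⟩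
    rw [dist_eq_norm]
    have := cfc_near hT hf le_rfl (by positivity : 0 ≤ e / 2) p hp
    linarith
  rwa [hc.closure_eq] at this

end fin

section spec

variable {H : Type} [NormedAddCommGroup H] [InnerProductSpace ℂ H] [CompleteSpace H]

theorem selfAdjoint_of {T : H →L[ℂ] H} (h : ∀ x y, inner ℂ (T x) y = inner ℂ x (T y)) :
    IsSelfAdjoint T :=
  ContinuousLinearMap.isSelfAdjoint_iff_isSymmetric.mpr h

theorem spec_ge {T : H →L[ℂ] H} (hT : IsSelfAdjoint T) {c : ℝ}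
    (h : ∀ x, c * ‖x‖ ^ 2 ≤ (inner ℂ (T x) x).re) : ∀ x ∈ spectrum ℝ T, c ≤ x := by
  rw [← algebraMap_le_iff_le_spectrum hT, ContinuousLinearMap.le_def]
  have hs : IsSelfAdjoint (T - algebraMap ℝ (H →L[ℂ] H) c) := hT.sub (IsSelfAdjoint.algebraMap _ (IsSelfAdjoint.all c))
  refine ⟨ContinuousLinearMap.isSelfAdjoint_iff_isSymmetric.mp hs, fun x => ?_⟩
  have h1 := h x
  have h2 : (T - algebraMap ℝ (H →L[ℂ] H) c) x = T x - (c : ℂ) • x := by
    rw [Algebra.algebraMap_eq_smul_one]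
    rfl
  have h3 := inner_self_eq_norm_sq (𝕜 := ℂ) x
  rw [ContinuousLinearMap.reApplyInnerSelf_apply, h2, inner_sub_left, inner_smul_left,
    Complex.conj_ofReal]
  simp only [RCLike.re_to_complex] at h3 ⊢
  rw [Complex.sub_re, Complex.re_ofReal_mul, h3]
  linarith

end spec

end F4

theorem partF4 : PartF4 := by
  intro H _ _ _ T B Bs lm ε c0 D hT hB hl0 hl hε hBB hBBB hBT hD hineq
  set P : ℕ → H →L[ℂ] H := fun n => Bs n * B n with hPdef
  have hPa : ∀ n x, P n x = Bs n (B n x) := fun _ _ => rfl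
  have hBs : ∀ n x y, inner ℂ (Bs n x) y = inner ℂ x (B n y) := by
    intro n x y
    rw [← inner_conj_symm, ← hB, inner_conj_symm]
  have hOP : F4.OP P := by
    refine ⟨fun n x y => ?_, fun n x => ?_, fun n m x hnm => ?_⟩
    · rw [hPa, hPa, hBs, hB]
    · have := congrArg (fun A : H →L[ℂ] H => Bs n (A x)) (hBBB n)
      simpa [hPa] using this
    · have := congrArg (fun A : H →L[ℂ] H => Bs n (A (B m x))) (hBB n m hnm)
      simpa [hPa] using this
  have hPB : ∀ n x, ‖B n x‖ ^ 2 = ‖P n x‖ ^ 2 := by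
    intro n x
    rw [hOP.norm_sq, hPa, hBs]
    have := inner_self_eq_norm_sq (𝕜 := ℂ) (B n x)
    simpa using this.symm
  have hc0 : 0 < c0 := lt_of_le_of_lt ((hl0 0).trans (hl 0)) hε
  have hPT : ∀ n x, P n (T x) = (lm n : ℂ) • P n x := by
    intro n x
    have := congrArg (fun A : H →L[ℂ] H => Bs n (A x)) (hBT n)
    simpa [hPa] using this
  have hTP : ∀ n x, T (P n x) = (lm n : ℂ) • P n x := by
    intro n x
    refine ext_inner_right ℂ fun y => ?_
    rw [hT, hOP.sym, hPT, inner_smul_right, inner_smul_left, hOP.sym, Complex.conj_ofReal]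
  obtain ⟨Q, hQ⟩ := hOP.exists_Q
  have hQs := F4.Q_sym hOP hQ
  have hQQ := F4.QQ hOP hQ
  have hTQ : ∀ x, T (Q x) = Q (T x) := by
    intro x
    have h1 : HasSum (fun n => T (P n x)) (T (Q x)) := T.hasSum (hQ x)
    have h2 := hQ (T x)
    simp only [hPT] at h2
    simp only [hTP] at h1
    exact h1.unique h2
  -- the inequality for all vectors
  have hgap : ∀ x, c0 * (‖x‖ ^ 2 - ‖Q x‖ ^ 2) ≤ (inner ℂ (T x) x).re := by
    have hcl : IsClosed {x : H | c0 * (‖x‖ ^ 2 - ‖Q x‖ ^ 2) ≤ (inner ℂ (T x) x).re} := by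
      refine isClosed_le (by fun_prop) ?_
      exact Complex.continuous_re.comp (T.continuous.inner continuous_id)
    intro x
    refine hcl.closure_subset_iff.mpr ?_ (hD x)
    intro ξ hξ
    obtain ⟨N, hN⟩ := hineq ξ hξ
    have h1 : ∑ n ∈ Finset.range N, ‖B n ξ‖ ^ 2 ≤ ‖Q ξ‖ ^ 2 := by
      rw [← F4.Q_norm hOP hQ, Finset.sum_congr rfl fun n _ => hPB n ξ]
      exact sum_le_hasSum _ (fun _ _ => sq_nonneg _) (F4.Q_hasSum hOP hQ ξ)
    have h2 : c0 * (‖ξ‖ ^ 2 - ‖Q ξ‖ ^ 2) ≤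
        c0 * (‖ξ‖ ^ 2 - ∑ n ∈ Finset.range N, ‖B n ξ‖ ^ 2) :=
      mul_le_mul_of_nonneg_left (by linarith) hc0.le
    exact h2.trans hN
  set T' : H →L[ℂ] H := T * (1 - Q) + (c0 : ℂ) • Q with hT'def
  have hT'a : ∀ x, T' x = T (x - Q x) + (c0 : ℂ) • Q x := fun _ => rfl
  have hT's : ∀ x y, inner ℂ (T' x) y = inner ℂ x (T' y) := by
    intro x y
    rw [hT'a, hT'a, inner_add_left, inner_add_right, hT, inner_smul_left, inner_smul_right,
      hQs, Complex.conj_ofReal, inner_sub_left, hQs, ← hTQ, map_sub, inner_sub_right]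
  have hpy : ∀ x, ‖x‖ ^ 2 = ‖x - Q x‖ ^ 2 + ‖Q x‖ ^ 2 := by
    intro x
    have h0 : inner ℂ (x - Q x) (Q x) = 0 := by
      rw [← hQs, map_sub, hQQ, sub_self, inner_zero_left]
    have := norm_add_sq_eq_norm_sq_add_norm_sq_of_inner_eq_zero _ _ h0
    rw [sub_add_cancel] at this
    nlinarith [this]
  have hge : ∀ x, c0 * ‖x‖ ^ 2 ≤ (inner ℂ (T' x) x).re := by
    intro x
    have hz : Q (x - Q x) = 0 := by rw [map_sub, hQQ, sub_self]
    have h1 := hgap (x - Q x)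
    rw [hz, norm_zero] at h1
    have h2 : inner ℂ (T' x) x = inner ℂ (T (x - Q x)) (x - Q x) + (c0 : ℂ) * inner ℂ (Q x) x := by
      rw [hT'a, inner_add_left, inner_smul_left, Complex.conj_ofReal]
      congr 1
      have h3 : inner ℂ (T (x - Q x)) (Q x) = 0 := by
        rw [← hQs, ← hTQ, hz, map_zero, inner_zero_left]
      rw [inner_sub_right, h3, sub_zero]
    rw [h2, Complex.add_re, Complex.re_ofReal_mul, F4.Q_norm hOP hQ, hpy x]
    linarith
  have hTsa := F4.selfAdjoint_of hT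
  have hQeq : cfc (F4.cut ε c0) T = Q :=
    F4.cfc_eq hQ hQQ hTsa (F4.selfAdjoint_of hT's) hl0 hl hε hTP
      (fun x hx => by rw [hT'a, hx, sub_zero, smul_zero, add_zero])
      (fun x hx => by rw [← hTQ, hx, map_zero])
      (F4.spec_ge (F4.selfAdjoint_of hT's) hge)
  refine ⟨Q, ContinuousLinearMap.ext fun x => hQQ x, hQs, fun ξ => ?_, fun Al hc h1 hm hTA => ?_⟩
  · simp only [hPB]
    exact F4.Q_hasSum hOP hQ ξ
  · rw [← hQeq]
    exact F4.cfc_mem hTsa (F4.cut_cont ε c0) Al hc h1 hm hTA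

end P089
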