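import Vale.Agent.Lib.P089.Interface
import Vale.Agent.Lib.P089.F.F3.Base
import Vale.Agent.Lib.P089.F.F3.Forest

/-!
# P089, F3: the local inequality
-/

namespace P089

open scoped Classical

noncomputable section

section Gen

variable {S : Type} [Fintype S] {V : Type}

/-- local term of the quadratic form -/
def F3_loc (d : ℕ) (act : V → S → V) (ω : V → Option (Finset S)) (f : V → ℝ) (v : V) : ℝ :=
  (if (ω v).isSome then (d : ℝ) else 1) * f v ^ 2 -
    ∑ s, if link act ω v s then f v * f (act v s) else 0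

theorem F3_loc_zero {d : ℕ} {act : V → S → V} {ω : V → Option (Finset S)} {f : V → ℝ} {v : V}
    (h : f v = 0) : F3_loc d act ω f v = 0 := by
  simp [F3_loc, h]

theorem F3_loc_illegal {d : ℕ} {act : V → S → V} {ω : V → Option (Finset S)} {f : V → ℝ} {v : V}
    (h : ω v = none) : F3_loc d act ω f v = f v ^ 2 := by
  have h1 : ∀ s, ¬ link act ω v s := by
    rintro s ⟨⟨t, ht, -⟩, -⟩
    rw [h] at ht
    exact absurd ht (by simp)
  simp [F3_loc, h, h1]

variable {d : ℕ} {Fm : Fam S d} {act : V → S → V} {ω : V → Option (Finset S)}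

/-- vertices in active copies of index `< N` -/
def F3_act (Fm : Fam S d) (act : V → S → V) (ω : V → Option (Finset S)) (N : ℕ) : Set V :=
  {v | ∃ x, Active Fm.toPG act ω v x ∧ Fm.idx x < N}

theorem F3_idx_nb {x y : Fm.P} {s : S} (h : Fm.nb x s = some y) : Fm.idx y = Fm.idx x :=
  ((Fm.conn x y).2 ⟨[s], by simp [walk, h]⟩).symm

theorem F3_act_link (hinv : ∀ v s, act (act v s) s = v) {N : ℕ} {v : V} {s : S}
    (hl : link act ω v s) (h : act v s ∈ F3_act Fm act ω N) : v ∈ F3_act Fm act ω N := by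
  obtain ⟨x, hx, hN⟩ := h
  obtain ⟨y, hy, hay, -⟩ := F3_step hx (F3_link_symm hinv hl)
  rw [hinv] at hay
  exact ⟨y, hay, by rw [F3_idx_nb hy]; exact hN⟩

theorem F3_active_link (hinv : ∀ v s, act (act v s) s = v) {v : V} {s : S}
    (hl : link act ω v s) (h : ∃ x, Active Fm.toPG act ω (act v s) x) :
    ∃ x, Active Fm.toPG act ω v x := by
  obtain ⟨x, hx⟩ := h
  obtain ⟨y, hy, hay, -⟩ := F3_step hx (F3_link_symm hinv hl)
  rw [hinv] at hay
  exact ⟨y, hay⟩

omit [Fintype S] in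
theorem F3_legal_of_link {v : V} {s : S} (hl : link act ω v s) : (ω (act v s)).isSome := by
  obtain ⟨-, t, ht, -⟩ := hl
  rw [ht]
  rfl

theorem F3_ldarts_le (hinv : ∀ v s, act (act v s) s = v) (F : Finset V) :
    ldarts act ω F ≤ ldarts act ω (F.filter fun v => ¬ ∃ x, Active Fm.toPG act ω v x) +
      ldarts act ω (F.filter fun v => ∃ x, Active Fm.toPG act ω v x) := by
  unfold ldarts
  refine le_trans (Finset.card_le_card ?_) (Finset.card_union_le _ _)
  rintro ⟨v, s⟩ hp
  simp only [Finset.mem_filter, Finset.mem_product, Finset.mem_univ, and_true] at hp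
  simp only [Finset.mem_union, Finset.mem_filter, Finset.mem_product, Finset.mem_univ, and_true]
  obtain ⟨hv, hl, hvs⟩ := hp
  by_cases h : ∃ x, Active Fm.toPG act ω v x
  · right
    refine ⟨⟨hv, h⟩, hl, hvs, ?_⟩
    obtain ⟨x, hx⟩ := h
    obtain ⟨y, -, hay, -⟩ := F3_step hx hl
    exact ⟨y, hay⟩
  · left
    exact ⟨⟨hv, h⟩, hl, hvs, fun h' => h (F3_active_link hinv hl h')⟩

/-- isoperimetry on the legal vertices outside the active copies of small index -/
theorem F3_iso {c : ℝ} (hc1 : c ≤ 1) (hd : 3 ≤ d) (M : Model Fm.toPG V act)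
    (hD : ∀ F : Finset V, (∀ v ∈ F, v ∈ Rest Fm.toPG act ω) →
      (ldarts act ω F : ℝ) ≤ (d - c) * F.card)
    {N K : ℕ} (hN : ∀ x, N ≤ Fm.idx x → K ≤ Fm.L x) (W : Finset V) (hW : W.card ≤ K)
    (F : Finset V) (hF : ∀ v ∈ F, (ω v).isSome ∧ v ∉ F3_act Fm act ω N ∧
      ((∃ x, Active Fm.toPG act ω v x) → v ∈ W)) :
    (ldarts act ω F : ℝ) ≤ (d - c) * F.card := by
  have h1 := F3_ldarts_le (Fm := Fm) (ω := ω) M.inv F
  have h2 := hD (F.filter fun v => ¬ ∃ x, Active Fm.toPG act ω v x) (by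
    intro v hv
    rw [Finset.mem_filter] at hv
    exact ⟨(hF v hv.1).1, fun x hx => hv.2 ⟨x, hx⟩⟩)
  have h3 : ldarts act ω (F.filter fun v => ∃ x, Active Fm.toPG act ω v x) ≤
      2 * (F.filter fun v => ∃ x, Active Fm.toPG act ω v x).card := by
    refine F3_forest M ω K _ ?_ ?_
    · intro v hv
      rw [Finset.mem_filter] at hv
      obtain ⟨x, hx⟩ := hv.2
      refine ⟨x, hx, hN x ?_⟩
      by_contra hlt
      exact (hF v hv.1).2.1 ⟨x, hx, by omega⟩
    · refine le_trans (Finset.card_le_card ?_) hW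
      intro v hv
      rw [Finset.mem_filter] at hv
      exact (hF v hv.1).2.2 hv.2
  have h4 : F.card = (F.filter fun v => ∃ x, Active Fm.toPG act ω v x).card +
      (F.filter fun v => ¬ ∃ x, Active Fm.toPG act ω v x).card :=
    (Finset.card_filter_add_card_filter_not _).symm
  have hd' : (3 : ℝ) ≤ d := by exact_mod_cast hd
  have h1' : (ldarts act ω F : ℝ) ≤
      ldarts act ω (F.filter fun v => ¬ ∃ x, Active Fm.toPG act ω v x) +
      ldarts act ω (F.filter fun v => ∃ x, Active Fm.toPG act ω v x) := by exact_mod_cast h1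
  have h3' : (ldarts act ω (F.filter fun v => ∃ x, Active Fm.toPG act ω v x) : ℝ) ≤
      2 * (F.filter fun v => ∃ x, Active Fm.toPG act ω v x).card := by exact_mod_cast h3
  have h4' : (F.card : ℝ) = (F.filter fun v => ∃ x, Active Fm.toPG act ω v x).card +
      (F.filter fun v => ¬ ∃ x, Active Fm.toPG act ω v x).card := by exact_mod_cast h4
  rw [h4', mul_add]
  have h5 : (2 : ℝ) * (F.filter fun v => ∃ x, Active Fm.toPG act ω v x).card ≤
      (d - c) * (F.filter fun v => ∃ x, Active Fm.toPG act ω v x).card :=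
    mul_le_mul_of_nonneg_right (by linarith) (by positivity)
  linarith

/-- the part of the form on the legal vertices outside the active copies of small index -/
theorem F3_rest {c c' : ℝ} (hc1 : c ≤ 1) (hd : 3 ≤ d) (M : Model Fm.toPG V act)
    (hleg : ∀ v t, ω v = some t → t.card ≤ d)
    (hD : ∀ F : Finset V, (∀ v ∈ F, v ∈ Rest Fm.toPG act ω) →
      (ldarts act ω F : ℝ) ≤ (d - c) * F.card)
    (hCh : ∀ (S V : Type) [Fintype S] (act : V → S → V) (lk : V → S → Prop),
      (∀ v s, act (act v s) s = v) → (∀ v s, lk v s → lk (act v s) s) →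
      (∀ v, (Finset.univ.filter (lk v)).card ≤ d) → ∀ U : Set V,
      (∀ F : Finset V, (∀ v ∈ F, v ∈ U) →
        (((F ×ˢ (Finset.univ : Finset S)).filter
          fun p => lk p.1 p.2 ∧ act p.1 p.2 ∈ F).card : ℝ) ≤ (d - c) * F.card) →
      ∀ f : V →₀ ℝ, (∀ v ∈ f.support, v ∈ U) →
        c' * ∑ v ∈ f.support, f v ^ 2 ≤
          ∑ v ∈ f.support, (d * f v ^ 2 - ∑ s, if lk v s then f v * f (act v s) else 0))
    {N K : ℕ} (hN : ∀ x, N ≤ Fm.idx x → K ≤ Fm.L x) (f : V →₀ ℝ) (hK : f.support.card ≤ K) :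
    c' * ∑ v ∈ f.support.filter (fun v => (ω v).isSome ∧ v ∉ F3_act Fm act ω N), f v ^ 2 ≤
      ∑ v ∈ f.support.filter (fun v => (ω v).isSome ∧ v ∉ F3_act Fm act ω N),
        F3_loc d act ω f v := by
  set g : V →₀ ℝ := f.filter (fun v => (ω v).isSome ∧ v ∉ F3_act Fm act ω N) with hg
  have hgs : g.support = f.support.filter (fun v => (ω v).isSome ∧ v ∉ F3_act Fm act ω N) :=
    Finsupp.support_filter _ _
  have h1 := hCh S V act (link act ω) M.inv (fun v s h => F3_link_symm M.inv h) (by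
    intro v
    by_cases hv : ∃ t, ω v = some t
    · obtain ⟨t, ht⟩ := hv
      refine le_trans (Finset.card_le_card ?_) (hleg v t ht)
      intro s hs
      rw [Finset.mem_filter] at hs
      obtain ⟨-, ⟨t', ht', hs'⟩, -⟩ := hs
      rw [ht] at ht'
      rw [Option.some.inj ht']
      exact hs'
    · refine le_trans (le_of_eq ?_) (Nat.zero_le _)
      rw [Finset.card_eq_zero, Finset.filter_eq_empty_iff]
      rintro s - ⟨⟨t, ht, -⟩, -⟩
      exact hv ⟨t, ht⟩)
    {v | (ω v).isSome ∧ v ∉ F3_act Fm act ω N ∧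
      ((∃ x, Active Fm.toPG act ω v x) → v ∈ f.support)}
    (fun F hF => F3_iso hc1 hd M hD hN f.support hK F hF) g (by
      intro v hv
      rw [hgs, Finset.mem_filter] at hv
      exact ⟨hv.2.1, hv.2.2, fun _ => hv.1⟩)
  rw [hgs] at h1
  have h2 : ∀ v ∈ f.support.filter (fun v => (ω v).isSome ∧ v ∉ F3_act Fm act ω N),
      g v = f v := by
    intro v hv
    rw [Finset.mem_filter] at hv
    exact Finsupp.filter_apply_pos _ f hv.2
  have h3 : ∑ v ∈ f.support.filter (fun v => (ω v).isSome ∧ v ∉ F3_act Fm act ω N), g v ^ 2 =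
      ∑ v ∈ f.support.filter (fun v => (ω v).isSome ∧ v ∉ F3_act Fm act ω N), f v ^ 2 :=
    Finset.sum_congr rfl fun v hv => by rw [h2 v hv]
  rw [h3] at h1
  refine h1.trans (le_of_eq (Finset.sum_congr rfl fun v hv => ?_))
  rw [h2 v hv, F3_loc]
  have hv' := Finset.mem_filter.1 hv
  rw [if_pos hv'.2.1]
  congr 1
  refine Finset.sum_congr rfl fun s _ => ?_
  by_cases hl : link act ω v s
  · rw [if_pos hl, if_pos hl]
    congr 1
    refine Finsupp.filter_apply_pos _ f ⟨F3_legal_of_link hl, fun h => ?_⟩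
    exact hv'.2.2 (F3_act_link M.inv hl h)
  · rw [if_neg hl, if_neg hl]

end Gen

section Copies

variable {St : Setup} (M : Model St.Fm.toPG St.Gm (cay St.Fm.toPG)) (E : EProps St)
  {ω : St.Gm → Option (Finset St.S)}

/-- the copy of `X n` with base position at `v` is active -/
def F3_actn (ω : St.Gm → Option (Finset St.S)) (n : ℕ) (v : St.Gm) : Prop :=
  ∀ z ∈ St.Fm.X n, ω (v * St.pos n z) = some (St.Fm.ty z)

/-- sum of the form over one active copy -/
theorem F3_copy (E : EProps St) {cP ε : ℝ} (g : GS St.Fm cP ε) {c0 : ℝ}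
    (hc : c0 ≤ cP) (n : ℕ) (v : St.Gm) (hv : F3_actn ω n v) (f : St.Gm → ℝ) :
    c0 * (∑ y ∈ St.Fm.X n, f (v * St.pos n y) ^ 2 -
      (∑ y ∈ St.Fm.X n, g.φ n y * f (v * St.pos n y)) ^ 2) ≤
      ∑ y ∈ St.Fm.X n, F3_loc St.d (cay St.Fm.toPG) ω f (v * St.pos n y) := by
  have h1 := g.gap n (fun y => f (v * St.pos n y))
  have h2 : (∑ y ∈ St.Fm.X n, g.φ n y * f (v * St.pos n y)) ^ 2 ≤
      ∑ y ∈ St.Fm.X n, f (v * St.pos n y) ^ 2 := by
    have := Finset.sum_mul_sq_le_sq_mul_sq (St.Fm.X n) (g.φ n) (fun y => f (v * St.pos n y))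
    rwa [g.norm n, one_mul] at this
  have h3 : ∑ y ∈ St.Fm.X n, F3_loc St.d (cay St.Fm.toPG) ω f (v * St.pos n y) =
      ∑ y ∈ St.Fm.X n, ((St.d : ℝ) * f (v * St.pos n y) ^ 2 -
        ∑ s, f (v * St.pos n y) * St.Fm.nbv (fun y => f (v * St.pos n y)) y s) := by
    refine Finset.sum_congr rfl fun y hy => ?_
    have ha : Active St.Fm.toPG (cay _) ω (v * St.pos n y) y := (E.active_iff ω v n y hy).2 hv
    rw [F3_loc, F3_active_self ha]
    simp only [Option.isSome_some, if_true]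
    congr 1
    refine Finset.sum_congr rfl fun s _ => ?_
    cases hs : St.Fm.nb y s with
    | none =>
      rw [if_neg]
      · simp [PG.nbv, hs]
      · rw [F3_link_iff ha, hs]
        simp
    | some y' =>
      rw [if_pos]
      · have h4 := E.walk_pos n y [s] y' hy (by simp [walk, hs])
        have h5 : cay St.Fm.toPG (v * St.pos n y) s = v * St.pos n y' := by
          rw [← h4]
          simp [cay, wd, mul_assoc]
        rw [h5]
        simp [PG.nbv, hs]
      · rw [F3_link_iff ha, hs]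
        rfl
  rw [h3]
  refine le_trans ?_ h1
  exact mul_le_mul_of_nonneg_right hc (by linarith)

/-- base points of the active copies of `X n` which meet `W` -/
def F3_B (ω : St.Gm → Option (Finset St.S)) (W : Finset St.Gm) (n : ℕ) : Finset St.Gm :=
  ((W ×ˢ St.Fm.X n).image fun p => p.1 * (St.pos n p.2)⁻¹).filter fun v => F3_actn ω n v

theorem F3_mem_B {W : Finset St.Gm} {n : ℕ} {v : St.Gm} : v ∈ F3_B ω W n ↔
    F3_actn ω n v ∧ ∃ y ∈ St.Fm.X n, v * St.pos n y ∈ W := by
  rw [F3_B, Finset.mem_filter, Finset.mem_image]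
  constructor
  · rintro ⟨⟨⟨u, y⟩, hp, rfl⟩, h⟩
    rw [Finset.mem_product] at hp
    exact ⟨h, y, hp.2, by simpa using hp.1⟩
  · rintro ⟨h, y, hy, hW⟩
    exact ⟨⟨(v * St.pos n y, y), Finset.mem_product.2 ⟨hW, hy⟩, by simp⟩, h⟩

theorem F3_PP (φ : ℕ → St.Fm.P → ℝ) (n : ℕ) (f : St.Gm →₀ ℝ) :
    St.PP φ n ω f = ∑ v ∈ F3_B ω f.support n,
      (∑ y ∈ St.Fm.X n, φ n y * f (v * St.pos n y)) ^ 2 := by
  unfold Setup.PP
  rw [finsum_eq_sum_of_support_subset (s := F3_B ω f.support n)]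
  · refine Finset.sum_congr rfl fun v hv => ?_
    have hv' := (F3_mem_B.1 hv).1
    exact if_pos hv'
  · intro v hv
    rw [Finset.mem_coe, F3_mem_B]
    rw [Function.mem_support] at hv
    by_cases h : ∀ z ∈ St.Fm.X n, ω (v * St.pos n z) = some (St.Fm.ty z)
    · refine ⟨h, ?_⟩
      by_contra hcon
      push Not at hcon
      apply hv
      rw [if_pos h, Finset.sum_eq_zero]
      · simp
      · intro y hy
        rw [Finsupp.notMem_support_iff.1 (hcon y hy), mul_zero]
    · rw [if_neg h] at hv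
      exact absurd rfl hv

include E in
theorem F3_act_mem {n : ℕ} {v : St.Gm} (hv : F3_actn ω n v) {y : St.Fm.P}
    (hy : y ∈ St.Fm.X n) : Active St.Fm.toPG (cay _) ω (v * St.pos n y) y :=
  (E.active_iff ω v n y hy).2 hv

/-- the vertices in active copies of small index -/
theorem F3_sum (E : EProps St) (hE3 : ∀ v x y, Active St.Fm.toPG (cay St.Fm.toPG) ω v x →
      Active St.Fm.toPG (cay St.Fm.toPG) ω v y → x = y) (N : ℕ) (W : Finset St.Gm)
    (h : St.Gm → ℝ) (h0 : ∀ v, v ∉ W → h v = 0) :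
    ∑ v ∈ W.filter (fun v => v ∈ F3_act St.Fm (cay St.Fm.toPG) ω N), h v =
      ∑ n ∈ Finset.range N, ∑ v ∈ F3_B ω W n, ∑ y ∈ St.Fm.X n, h (v * St.pos n y) := by
  have hT : ∑ n ∈ Finset.range N, ∑ v ∈ F3_B ω W n, ∑ y ∈ St.Fm.X n, h (v * St.pos n y) =
      ∑ t ∈ (Finset.range N).sigma (fun n => F3_B ω W n ×ˢ St.Fm.X n),
        h (t.2.1 * St.pos t.1 t.2.2) := by
    rw [Finset.sum_sigma]
    refine Finset.sum_congr rfl fun n _ => ?_
    rw [Finset.sum_product]
  rw [hT]
  symm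
  rw [← Finset.sum_image (g := fun t : (Σ _ : ℕ, St.Gm × St.Fm.P) => t.2.1 * St.pos t.1 t.2.2)
    (f := h)]
  · symm
    refine Finset.sum_subset ?_ ?_
    · intro v hv
      rw [Finset.mem_filter] at hv
      obtain ⟨hvW, x, hx, hxN⟩ := hv
      have hxm : x ∈ St.Fm.X (St.Fm.idx x) := (St.Fm.memX _ _).2 rfl
      rw [Finset.mem_image]
      refine ⟨⟨St.Fm.idx x, (v * (St.pos (St.Fm.idx x) x)⁻¹, x)⟩, ?_, by simp⟩
      rw [Finset.mem_sigma, Finset.mem_product, F3_mem_B]
      refine ⟨Finset.mem_range.2 hxN, ⟨?_, x, hxm, by simpa using hvW⟩, hxm⟩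
      refine (E.active_iff ω _ _ x hxm).1 ?_
      simpa using hx
    · intro v hv hv'
      refine h0 v fun hW => hv' ?_
      rw [Finset.mem_filter]
      refine ⟨hW, ?_⟩
      rw [Finset.mem_image] at hv
      obtain ⟨⟨n, u, y⟩, ht, rfl⟩ := hv
      rw [Finset.mem_sigma, Finset.mem_product, F3_mem_B] at ht
      refine ⟨y, F3_act_mem E ht.2.1.1 ht.2.2, ?_⟩
      rw [(St.Fm.memX n y).1 ht.2.2]
      exact Finset.mem_range.1 ht.1
  · rintro ⟨n, u, y⟩ ht ⟨n', u', y'⟩ ht' e
    rw [Finset.mem_coe, Finset.mem_sigma, Finset.mem_product, F3_mem_B] at ht ht'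
    simp only at e ht ht'
    have a1 := F3_act_mem E ht.2.1.1 ht.2.2
    have a2 := F3_act_mem E ht'.2.1.1 ht'.2.2
    rw [← e] at a2
    have ey : y = y' := hE3 _ _ _ a1 a2
    subst ey
    have en : n = n' := by
      rw [← (St.Fm.memX n y).1 ht.2.2, ← (St.Fm.memX n' y).1 ht'.2.2]
    subst en
    have eu : u = u' := mul_right_cancel e
    rw [eu]

end Copies

theorem partF3 (hA3 : PartA3) (hD : PartD) (hCh : PartCh) (hE3 : PartE3) : PartF3 := by
  intro d h cP hd hh hcP
  obtain ⟨c, L0, hc, hD⟩ := hD d h hd hh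
  obtain ⟨c', hc', hCh⟩ := hCh d (min c 1) (lt_min hc one_pos)
  refine ⟨min (min c' cP) 1, L0, lt_min (lt_min hc' hcP) one_pos,
    (min_le_left _ _).trans (min_le_right _ _), ?_⟩
  intro St hSt K0 ε hG M E g K
  subst hSt
  obtain ⟨N, hN⟩ := hG.L_tend K
  refine ⟨N, fun χ f hf => ?_⟩
  set ω := St.om χ with hω
  have hleg := E.legal χ
  set c0 : ℝ := min (min c' cP) 1 with hc0
  have hc0' : c0 ≤ c' := (min_le_left _ _).trans (min_le_left _ _)
  have hc0P : c0 ≤ cP := (min_le_left _ _).trans (min_le_right _ _)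
  have hc01 : c0 ≤ 1 := min_le_right _ _
  have hE3' : ∀ v x y, Active St.Fm.toPG (cay St.Fm.toPG) ω v x →
      Active St.Fm.toPG (cay St.Fm.toPG) ω v y → x = y :=
    hE3 St.S St.d St.Fm St.Gm (cay _) M hG.ball ω
  -- the three parts
  have hsplit : ∀ q : St.Gm → ℝ, ∑ v ∈ f.support, q v =
      ∑ v ∈ f.support.filter (fun v => v ∈ F3_act St.Fm (cay St.Fm.toPG) ω N), q v +
      (∑ v ∈ f.support.filter (fun v => (ω v).isSome ∧
        v ∉ F3_act St.Fm (cay St.Fm.toPG) ω N), q v +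
      ∑ v ∈ f.support.filter (fun v => ω v = none), q v) := by
    intro q
    rw [← Finset.sum_filter_add_sum_filter_not f.support
      (fun v => v ∈ F3_act St.Fm (cay St.Fm.toPG) ω N)]
    congr 1
    rw [← Finset.sum_filter_add_sum_filter_not (f.support.filter
      (fun v => ¬ v ∈ F3_act St.Fm (cay St.Fm.toPG) ω N)) (fun v => (ω v).isSome),
      Finset.filter_filter, Finset.filter_filter]
    congr 1
    · refine Finset.sum_congr (Finset.filter_congr fun v _ => ?_) fun _ _ => rfl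
      tauto
    · refine Finset.sum_congr (Finset.filter_congr fun v _ => ?_) fun _ _ => rfl
      rw [Option.isSome_iff_ne_none, not_not]
      constructor
      · exact fun h => h.2
      · refine fun h => ⟨?_, h⟩
        rintro ⟨x, hx, -⟩
        rw [F3_active_self hx] at h
        exact absurd h (by simp)
  have hrest := F3_rest (ω := ω) (min_le_right c 1) hd M hleg.card_le (fun F hF =>
      (hD St.S St.Fm hG.b2 hG.L0_le St.Gm (cay _) M (hA3 St.S St.Fm.toPG M) ω hleg F hF).trans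
        (mul_le_mul_of_nonneg_right (by linarith [min_le_left c 1]) (by positivity)))
    hCh hN f hf
  have hill : ∑ v ∈ f.support.filter (fun v => ω v = none), F3_loc St.d (cay _) ω f v =
      ∑ v ∈ f.support.filter (fun v => ω v = none), f v ^ 2 :=
    Finset.sum_congr rfl fun v hv => F3_loc_illegal (Finset.mem_filter.1 hv).2
  have hact : c0 * (∑ v ∈ f.support.filter
        (fun v => v ∈ F3_act St.Fm (cay St.Fm.toPG) ω N), f v ^ 2 -
        ∑ n ∈ Finset.range N, St.PP g.φ n ω f) ≤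
      ∑ v ∈ f.support.filter (fun v => v ∈ F3_act St.Fm (cay St.Fm.toPG) ω N),
        F3_loc St.d (cay _) ω f v := by
    rw [F3_sum E hE3' N f.support (fun v => f v ^ 2) (fun v hv => by
        rw [Finsupp.notMem_support_iff.1 hv]; simp),
      F3_sum E hE3' N f.support (fun v => F3_loc St.d (cay _) ω f v) (fun v hv =>
        F3_loc_zero (Finsupp.notMem_support_iff.1 hv)), ← Finset.sum_sub_distrib,
      Finset.mul_sum]
    refine Finset.sum_le_sum fun n _ => ?_
    rw [F3_PP, ← Finset.sum_sub_distrib, Finset.mul_sum]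
    refine Finset.sum_le_sum fun v hv => ?_
    exact F3_copy E g hc0P n v (F3_mem_B.1 hv).1 f
  have hEE : Setup.EE St.d (cay St.Fm.toPG) ω f =
      ∑ v ∈ f.support, F3_loc St.d (cay St.Fm.toPG) ω f v := rfl
  rw [hEE, hsplit (fun v => f v ^ 2), hsplit (fun v => F3_loc St.d (cay St.Fm.toPG) ω f v), hill]
  have h1 : c0 * ∑ v ∈ f.support.filter (fun v => (ω v).isSome ∧
      v ∉ F3_act St.Fm (cay St.Fm.toPG) ω N), f v ^ 2 ≤
      c' * ∑ v ∈ f.support.filter (fun v => (ω v).isSome ∧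
      v ∉ F3_act St.Fm (cay St.Fm.toPG) ω N), f v ^ 2 :=
    mul_le_mul_of_nonneg_right hc0' (Finset.sum_nonneg fun _ _ => sq_nonneg _)
  have h2 : c0 * ∑ v ∈ f.support.filter (fun v => ω v = none), f v ^ 2 ≤
      1 * ∑ v ∈ f.support.filter (fun v => ω v = none), f v ^ 2 :=
    mul_le_mul_of_nonneg_right hc01 (Finset.sum_nonneg fun _ _ => sq_nonneg _)
  linarith

end

end P089
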