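import Vale.Agent.Lib.P089.Interface2

/-!
# P089, part F5: algebraic identities for `Tel`, `Bel n`, `BelS n`
-/

namespace P089

open scoped Classical

namespace F5

section Adj

variable {G : Type} [Group G]

/-- `lamHat b` is the adjoint of `lamHat a` -/
def Adj (a b : MonoidAlgebra ℂ G) : Prop :=
  ∀ x y : HH G, inner ℂ (lamHat a x) y = inner ℂ x (lamHat b y)

theorem Adj.add {a b a' b' : MonoidAlgebra ℂ G} (h : Adj a b) (h' : Adj a' b') :
    Adj (a + a') (b + b') := by
  intro x y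
  rw [map_add, map_add]
  change inner ℂ (lamHat a x + lamHat a' x) y = inner ℂ x (lamHat b y + lamHat b' y)
  rw [inner_add_left, inner_add_right, h, h']

theorem Adj.sub {a b a' b' : MonoidAlgebra ℂ G} (h : Adj a b) (h' : Adj a' b') :
    Adj (a - a') (b - b') := by
  intro x y
  rw [map_sub, map_sub]
  change inner ℂ (lamHat a x - lamHat a' x) y = inner ℂ x (lamHat b y - lamHat b' y)
  rw [inner_sub_left, inner_sub_right, h, h']

theorem Adj.zero : Adj (0 : MonoidAlgebra ℂ G) 0 := by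
  intro x y
  rw [map_zero]
  change inner ℂ (0 : HH G) y = inner ℂ x (0 : HH G)
  rw [inner_zero_left, inner_zero_right]

theorem Adj.sum {ι : Type} (s : Finset ι) (a b : ι → MonoidAlgebra ℂ G)
    (h : ∀ i ∈ s, Adj (a i) (b i)) : Adj (∑ i ∈ s, a i) (∑ i ∈ s, b i) := by
  induction s using Finset.induction_on with
  | empty => exact Adj.zero
  | insert i s hi ih =>
    rw [Finset.sum_insert hi, Finset.sum_insert hi]
    exact (h i (Finset.mem_insert_self i s)).add
      (ih fun j hj => h j (Finset.mem_insert_of_mem hj))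

theorem Adj.smul {a b : MonoidAlgebra ℂ G} (h : Adj a b) {r : ℂ} (hr : (starRingEnd ℂ) r = r) :
    Adj (r • a) (r • b) := by
  intro x y
  rw [map_smul, map_smul]
  change inner ℂ (r • lamHat a x) y = inner ℂ x (r • lamHat b y)
  rw [inner_smul_left, inner_smul_right, h, hr]

theorem Adj.mul {a b a' b' : MonoidAlgebra ℂ G} (h : Adj a b) (h' : Adj a' b') :
    Adj (a * a') (b' * b) := by
  intro x y
  rw [map_mul, map_mul]
  change inner ℂ (lamHat a (lamHat a' x)) y = inner ℂ x (lamHat b' (lamHat b y))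
  rw [h, h']

theorem Adj.single (g : G) {c : ℂ} (hc : (starRingEnd ℂ) c = c) :
    Adj (MonoidAlgebra.single g c) (MonoidAlgebra.single g⁻¹ c) := by
  intro x y
  rw [lamHat_single, lamHat_single]
  change inner ℂ (c • lam g x) y = inner ℂ x (c • lam g⁻¹ y)
  rw [inner_smul_left, inner_smul_right, hc, ← lam_adjoint,
    ContinuousLinearMap.adjoint_inner_right]

end Adj

variable (St : Setup)

theorem conj_sgn (a : ZMod 2) : (starRingEnd ℂ) (Setup.sgn a) = Setup.sgn a := by
  unfold Setup.sgn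
  split_ifs <;> simp

theorem sgn_mul_self (a : ZMod 2) : Setup.sgn a * Setup.sgn a = 1 := by
  unfold Setup.sgn
  split_ifs <;> simp

theorem neg_A (a : St.A) : -a = a := by
  have h : a + a = 0 := by
    have h2 : (2 : ZMod 2) • a = a + a := by rw [two_smul]
    rw [← h2]
    have : (2 : ZMod 2) = 0 := by decide
    rw [this, zero_smul]
  exact neg_eq_of_add_eq_zero_left h

theorem ofA_inv (a : St.A) : (St.ofA a)⁻¹ = St.ofA a := by
  unfold Setup.ofA
  rw [← map_inv, ← ofAdd_neg, neg_A]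

theorem ofG_inv (γ : St.Gm) : (St.ofG γ)⁻¹ = St.ofG γ⁻¹ := by
  unfold Setup.ofG
  rw [map_inv]

theorem adj_ofA (a : St.A) {c : ℂ} (hc : (starRingEnd ℂ) c = c) :
    Adj (MonoidAlgebra.single (St.ofA a) c) (MonoidAlgebra.single (St.ofA a) c) := by
  have h := Adj.single (St.ofA a) hc
  rwa [ofA_inv] at h

theorem adj_eproj (τ : Fin St.k → ZMod 2) : Adj (St.eproj τ) (St.eproj τ) := by
  unfold Setup.eproj
  refine Adj.sum _ _ _ fun u _ => adj_ofA St _ ?_
  rw [map_mul, conj_sgn, map_pow, map_inv₀, map_ofNat]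

theorem gen_sq (M : Model St.Fm.toPG St.Gm (cay _)) (s : St.S) :
    gen St.Fm.toPG s * gen St.Fm.toPG s = 1 := by
  have h := M.inv 1 s
  unfold cay at h
  rwa [one_mul] at h

theorem gen_inv (M : Model St.Fm.toPG St.Gm (cay _)) (s : St.S) :
    (gen St.Fm.toPG s)⁻¹ = gen St.Fm.toPG s := by
  rw [inv_eq_iff_mul_eq_one]
  exact gen_sq St M s

theorem adj_Tel (M : Model St.Fm.toPG St.Gm (cay _)) : Adj St.Tel St.Tel := by
  unfold Setup.Tel
  refine Adj.sub ?_ ?_
  · refine Adj.sum _ _ _ fun τ _ => (adj_eproj St τ).smul ?_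
    split_ifs <;> simp
  · refine Adj.sum _ _ _ fun s _ => ?_
    have h1 : Adj (∑ τ : Fin St.k → ZMod 2, ∑ τ' : Fin St.k → ZMod 2,
        if (∃ t, St.dec τ = some t ∧ s ∈ t) ∧ (∃ t, St.dec τ' = some t ∧ s ∈ t) then
          St.eproj τ' * MonoidAlgebra.single (St.ofG (gen _ s)) (1 : ℂ) * St.eproj τ
        else 0)
        (∑ τ : Fin St.k → ZMod 2, ∑ τ' : Fin St.k → ZMod 2,
        if (∃ t, St.dec τ = some t ∧ s ∈ t) ∧ (∃ t, St.dec τ' = some t ∧ s ∈ t) then
          St.eproj τ * MonoidAlgebra.single (St.ofG (gen _ s)) (1 : ℂ) * St.eproj τ'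
        else 0) := by
      refine Adj.sum _ _ _ fun τ _ => Adj.sum _ _ _ fun τ' _ => ?_
      split_ifs with h
      · have h2 : Adj (MonoidAlgebra.single (St.ofG (gen St.Fm.toPG s)) (1 : ℂ))
            (MonoidAlgebra.single (St.ofG (gen St.Fm.toPG s)) (1 : ℂ)) := by
          have h3 := Adj.single (St.ofG (gen St.Fm.toPG s)) (c := 1) (map_one _)
          rwa [ofG_inv, gen_inv St M] at h3
        have h4 := ((adj_eproj St τ').mul h2).mul (adj_eproj St τ)
        rwa [← mul_assoc] at h4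
      · exact Adj.zero
    have h2 : (∑ τ : Fin St.k → ZMod 2, ∑ τ' : Fin St.k → ZMod 2,
        if (∃ t, St.dec τ = some t ∧ s ∈ t) ∧ (∃ t, St.dec τ' = some t ∧ s ∈ t) then
          St.eproj τ * MonoidAlgebra.single (St.ofG (gen St.Fm.toPG s)) (1 : ℂ) * St.eproj τ'
        else 0) =
        (∑ τ : Fin St.k → ZMod 2, ∑ τ' : Fin St.k → ZMod 2,
        if (∃ t, St.dec τ = some t ∧ s ∈ t) ∧ (∃ t, St.dec τ' = some t ∧ s ∈ t) then
          St.eproj τ' * MonoidAlgebra.single (St.ofG (gen St.Fm.toPG s)) (1 : ℂ) * St.eproj τ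
        else 0) := by
      rw [Finset.sum_comm]
      refine Finset.sum_congr rfl fun τ _ => Finset.sum_congr rfl fun τ' _ => ?_
      simp only [and_comm]
    rw [h2] at h1
    exact h1

theorem adj_Eel (n : ℕ) (hfin : Finite (St.Acopy n)) : Adj (St.Eel n) (St.Eel n) := by
  have hf : (St.Acopy n : Set St.A).Finite := hfin
  unfold Setup.Eel
  rw [finsum_mem_eq_finite_toFinset_sum _ hf]
  refine Adj.sum _ _ _ fun a _ => adj_ofA St _ ?_
  rw [map_mul, conj_sgn, map_inv₀]
  simp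

theorem adj_Bel (φ : ℕ → St.Fm.P → ℝ) (n : ℕ) (hfin : Finite (St.Acopy n)) :
    Adj (St.Bel φ n) (St.BelS φ n) := by
  unfold Setup.Bel Setup.BelS
  refine Adj.sum _ _ _ fun y _ => ?_
  have h1 := Adj.single (St.ofG (St.pos n y)) (c := 1) (map_one _)
  rw [ofG_inv] at h1
  exact ((adj_Eel St n hfin).mul h1).smul (Complex.conj_ofReal _)

/-! ### faithfulness -/

theorem faithful (h1 : PartF1) (x : MonoidAlgebra ℂ St.G)
    (h : ∀ χ : St.A →ₗ[ZMod 2] ZMod 2, St.rho χ x = 0) : x = 0 := by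
  obtain ⟨-, h2⟩ := h1 St
  obtain ⟨C, hC, h3⟩ := h2 {x}
  have h4 := h3 x (Finset.mem_singleton_self x) x (Finset.mem_singleton_self x)
  have h5 : ∀ χ : St.A →ₗ[ZMod 2] ZMod 2, St.hat χ x = 0 := by
    intro χ
    unfold Setup.hat
    rw [h χ]
    rfl
  simp only [h5, Pi.zero_apply, mul_zero, finsum_zero, Finset.sum_const_zero] at h4
  have hC' : (C.card : ℂ) ≠ 0 := by
    exact_mod_cast (Finset.card_pos.2 hC).ne'
  have h6 : inner ℂ (iota x) (iota x) = (0 : ℂ) := by
    rcases mul_eq_zero.1 h4 with h | h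
    · exact absurd h hC'
    · exact h
  rw [inner_self_eq_zero] at h6
  apply MonoidAlgebra.coeff_injective
  ext g
  rw [← iota_apply, h6]
  rfl

theorem faithful' (h1 : PartF1) {x y : MonoidAlgebra ℂ St.G}
    (h : ∀ χ : St.A →ₗ[ZMod 2] ZMod 2, ∀ f v, St.rho χ x f v = St.rho χ y f v) : x = y := by
  rw [← sub_eq_zero]
  refine faithful St h1 _ fun χ => ?_
  rw [map_sub, sub_eq_zero]
  exact LinearMap.ext fun f => funext fun v => h χ f v

/-- the copy of `X n` with base position at `v` is active -/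
abbrev act0 (χ : St.A →ₗ[ZMod 2] ZMod 2) (n : ℕ) (v : St.Gm) : Prop :=
  ∀ z ∈ St.Fm.X n, St.om χ (v * St.pos n z) = some (St.Fm.ty z)

variable {St}

/-- two active copies through a vertex coincide -/
theorem act_unique (h3 : PartE3) (M : Model St.Fm.toPG St.Gm (cay _)) (hb : St.Fm.Ball)
    (E : EProps St) {χ : St.A →ₗ[ZMod 2] ZMod 2} {n m : ℕ} {v v' : St.Gm} {y y' : St.Fm.P}
    (hy : y ∈ St.Fm.X n) (hy' : y' ∈ St.Fm.X m) (h : act0 St χ n v) (h' : act0 St χ m v')
    (hv : v * St.pos n y = v' * St.pos m y') : y = y' := by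
  have a1 := (E.active_iff (St.om χ) v n y hy).2 h
  have a2 := (E.active_iff (St.om χ) v' m y' hy').2 h'
  rw [← hv] at a2
  exact h3 _ _ St.Fm _ _ M hb _ _ _ _ a1 a2

theorem rho_mul_apply (χ : St.A →ₗ[ZMod 2] ZMod 2) (x y : MonoidAlgebra ℂ St.G) (f : St.Gm → ℂ)
    (v : St.Gm) : St.rho χ (x * y) f v = St.rho χ x (St.rho χ y f) v := by
  rw [map_mul]
  rfl

theorem rho_Bel_BelS (h2 : PartF2) (h3 : PartE3) (M : Model St.Fm.toPG St.Gm (cay _))
    (hb : St.Fm.Ball) (E : EProps St) (φ : ℕ → St.Fm.P → ℝ)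
    (χ : St.A →ₗ[ZMod 2] ZMod 2) (n m : ℕ) (f : St.Gm → ℂ) (v : St.Gm) :
    St.rho χ (St.Bel φ n * St.BelS φ m) f v =
      if n = m ∧ act0 St χ n v then ((∑ y ∈ St.Fm.X n, φ n y ^ 2 : ℝ) : ℂ) * f v else 0 := by
  rw [rho_mul_apply, ((h2 St E χ _ v).2 φ n).1]
  by_cases hv : act0 St χ n v
  · rw [if_pos hv]
    have key : ∀ y ∈ St.Fm.X n, St.rho χ (St.BelS φ m) f (v * St.pos n y) =
        if n = m then ((φ m y : ℝ) : ℂ) * f v else 0 := by
      intro y hy
      rw [((h2 St E χ f _).2 φ m).2]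
      by_cases hnm : n = m
      · subst hnm
        rw [if_pos rfl, Finset.sum_eq_single y]
        · rw [mul_inv_cancel_right, if_pos]
          exact hv
        · intro y' hy' hne
          rw [if_neg, mul_zero]
          intro hact
          refine hne (act_unique h3 M hb E hy hy' hv hact ?_).symm
          rw [inv_mul_cancel_right]
        · exact fun h => absurd hy h
      · rw [if_neg hnm]
        refine Finset.sum_eq_zero fun y' hy' => ?_
        rw [if_neg, mul_zero]
        intro hact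
        have h4 := act_unique h3 M hb E hy hy' hv hact (by rw [inv_mul_cancel_right])
        rw [← h4] at hy'
        exact hnm (((St.Fm.memX n y).1 hy).symm.trans ((St.Fm.memX m y).1 hy'))
    rw [Finset.sum_congr rfl fun y hy => by rw [key y hy]]
    by_cases hnm : n = m
    · subst hnm
      rw [if_pos ⟨rfl, hv⟩]
      simp only [if_true]
      rw [Complex.ofReal_sum, Finset.sum_mul]
      refine Finset.sum_congr rfl fun y _ => ?_
      push_cast
      ring
    · rw [if_neg fun h => hnm h.1]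
      simp only [if_neg hnm, mul_zero, Finset.sum_const_zero]
  · rw [if_neg hv, if_neg fun h => hv h.2]

/-! ### the eigenvalue equation -/

theorem idx_nb {x y : St.Fm.P} {s : St.S} (h : St.Fm.nb x s = some y) {n : ℕ} :
    x ∈ St.Fm.X n ↔ y ∈ St.Fm.X n := by
  have h1 : St.Fm.idx x = St.Fm.idx y := by
    refine (St.Fm.conn x y).2 ⟨[s], ?_⟩
    simp [walk, h]
  rw [St.Fm.memX, St.Fm.memX, h1]

/-- the neighbour, `x` itself if there is none -/
noncomputable def nbd (x : St.Fm.P) (s : St.S) : St.Fm.P := (St.Fm.nb x s).getD x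

theorem nbv_swap (n : ℕ) (f g : St.Fm.P → ℂ) :
    ∑ x ∈ St.Fm.X n, ∑ s, f x * St.Fm.nbv g x s = ∑ x ∈ St.Fm.X n, ∑ s, St.Fm.nbv f x s * g x := by
  rw [Finset.sum_comm, Finset.sum_comm (s := St.Fm.X n)]
  refine Finset.sum_congr rfl fun s _ => ?_
  refine Finset.sum_bij' (fun x _ => nbd x s) (fun x _ => nbd x s) ?_ ?_ ?_ ?_ ?_
  · intro x hx
    unfold nbd
    cases h : St.Fm.nb x s with
    | none => exact hx
    | some y => exact (idx_nb h).1 hx
  · intro x hx
    unfold nbd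
    cases h : St.Fm.nb x s with
    | none => exact hx
    | some y => exact (idx_nb h).1 hx
  · intro x hx
    unfold nbd
    cases h : St.Fm.nb x s with
    | none => simp [h]
    | some y => simp [St.Fm.symm _ _ _ h]
  · intro x hx
    unfold nbd
    cases h : St.Fm.nb x s with
    | none => simp [h]
    | some y => simp [St.Fm.symm _ _ _ h]
  · intro x hx
    unfold nbd PG.nbv
    cases h : St.Fm.nb x s with
    | none => simp [h]
    | some y => simp [St.Fm.symm _ _ _ h]

theorem nbv_ofReal (a : St.Fm.P → ℝ) (x : St.Fm.P) (s : St.S) :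
    St.Fm.nbv (fun y => ((a y : ℝ) : ℂ)) x s = ((St.Fm.nbv a x s : ℝ) : ℂ) := by
  unfold PG.nbv
  cases St.Fm.nb x s <;> simp

theorem rho_Tel_act (h2 : PartF2) (E : EProps St) {χ : St.A →ₗ[ZMod 2] ZMod 2} {n : ℕ}
    {v : St.Gm} (hv : act0 St χ n v) (f : St.Gm → ℂ) {y : St.Fm.P} (hy : y ∈ St.Fm.X n) :
    St.rho χ St.Tel f (v * St.pos n y) =
      (St.d : ℂ) * f (v * St.pos n y) - ∑ s, St.Fm.nbv (fun z => f (v * St.pos n z)) y s := by
  rw [(h2 St E χ f _).1, hv y hy]
  simp only [Option.isSome_some, if_true]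
  congr 1
  refine Finset.sum_congr rfl fun s _ => ?_
  have hused : ∀ z ∈ St.Fm.X n, used (St.om χ) (v * St.pos n z) s ↔ (St.Fm.nb z s).isSome := by
    intro z hz
    unfold used
    rw [hv z hz]
    simp [PG.ty]
  cases h : St.Fm.nb y s with
  | none =>
    have h4 : ¬ link (cay _) (St.om χ) (v * St.pos n y) s := by
      intro hl
      have h5 := (hused y hy).1 hl.1
      rw [h] at h5
      simp at h5
    rw [if_neg h4]
    unfold PG.nbv
    rw [h]
  | some z =>
    have hz : z ∈ St.Fm.X n := (idx_nb h).1 hy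
    have h5 : cay St.Fm.toPG (v * St.pos n y) s = v * St.pos n z := by
      have h6 := E.walk_pos n y [s] z hy (by simp [walk, h])
      have h7 : wd St.Fm.toPG [s] = gen St.Fm.toPG s := by simp [wd]
      rw [h7] at h6
      unfold cay
      rw [mul_assoc, h6]
    have h4 : link (cay _) (St.om χ) (v * St.pos n y) s := by
      refine ⟨(hused y hy).2 (by rw [h]; rfl), ?_⟩
      rw [h5]
      exact (hused z hz).2 (by rw [St.Fm.symm _ _ _ h]; rfl)
    rw [if_pos h4, h5]
    unfold PG.nbv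
    rw [h]

theorem Bel_Tel (h1 : PartF1) (h2 : PartF2) (E : EProps St) {cP ε : ℝ} (g : GS St.Fm cP ε)
    (n : ℕ) : St.Bel g.φ n * St.Tel = ((g.lm n : ℝ) : ℂ) • St.Bel g.φ n := by
  refine faithful' St h1 fun χ f v => ?_
  rw [rho_mul_apply, map_smul]
  change _ = ((g.lm n : ℝ) : ℂ) * St.rho χ (St.Bel g.φ n) f v
  rw [((h2 St E χ _ v).2 g.φ n).1, ((h2 St E χ f v).2 g.φ n).1]
  by_cases hv : act0 St χ n v
  · rw [if_pos hv, if_pos hv, Finset.sum_congr rfl fun y hy => by rw [rho_Tel_act h2 E hv f hy]]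
    set F : St.Fm.P → ℂ := fun z => f (v * St.pos n z) with hF
    have h3 := nbv_swap n (fun y => ((g.φ n y : ℝ) : ℂ)) F
    have h4 : ∑ y ∈ St.Fm.X n, ((g.φ n y : ℝ) : ℂ) * ((St.d : ℂ) * f (v * St.pos n y) -
        ∑ s, St.Fm.nbv F y s) = ∑ y ∈ St.Fm.X n, ((St.d : ℂ) * ((g.φ n y : ℝ) : ℂ) * F y) -
        ∑ y ∈ St.Fm.X n, ∑ s, ((g.φ n y : ℝ) : ℂ) * St.Fm.nbv F y s := by
      rw [← Finset.sum_sub_distrib]
      refine Finset.sum_congr rfl fun y _ => ?_
      rw [mul_sub, Finset.mul_sum]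
      ring
    rw [h4, h3, ← Finset.sum_sub_distrib, Finset.mul_sum]
    refine Finset.sum_congr rfl fun y hy => ?_
    have h5 := g.eig n y hy
    have h6 : ((g.lm n : ℝ) : ℂ) * ((g.φ n y : ℝ) : ℂ) =
        (St.d : ℂ) * ((g.φ n y : ℝ) : ℂ) -
          ∑ s, St.Fm.nbv (fun y => ((g.φ n y : ℝ) : ℂ)) y s := by
      have h7 := congrArg (fun r : ℝ => (r : ℂ)) h5
      push_cast at h7
      rw [← h7]
      congr 1
      exact Finset.sum_congr rfl fun s _ => (nbv_ofReal _ _ _).symm
    rw [← mul_assoc, h6, sub_mul, Finset.sum_mul]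
  · rw [if_neg hv, if_neg hv, mul_zero]

/-! ### the norm -/

theorem iota_single {G : Type} [Group G] (g : G) (c : ℂ) :
    iota (MonoidAlgebra.single g c) = c • dl g := by
  change lamHat (MonoidAlgebra.single g c) (dl 1) = c • dl g
  rw [lamHat_single]
  change c • lam g (dl 1) = c • dl g
  rw [lam_dl, mul_one]

theorem orthonormal_dl (G : Type) [Group G] : Orthonormal ℂ (dl : G → HH G) := by
  rw [orthonormal_iff_ite]
  intro g h
  have h1 := inner_iota (MonoidAlgebra.single g (1 : ℂ)) (MonoidAlgebra.single h (1 : ℂ))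
  have e : ∀ g : G, iota (MonoidAlgebra.single g (1 : ℂ)) = dl g := by
    intro g
    rw [iota_single, one_smul]
  rw [e, e] at h1
  rw [h1]
  have h2 : (MonoidAlgebra.single g (1 : ℂ)).coeff.support = {g} := by
    rw [MonoidAlgebra.coeff_single]
    exact Finsupp.support_single g one_ne_zero
  rw [h2, Finset.sum_singleton, MonoidAlgebra.coeff_single, MonoidAlgebra.coeff_single,
    Finsupp.single_eq_same, map_one, one_mul, Finsupp.single_apply]
  simp only [eq_comm]

theorem norm_Bel (E : EProps St) {cP ε : ℝ} (g : GS St.Fm cP ε) (n : ℕ) :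
    ‖iota (St.Bel g.φ n)‖ ^ 2 = ((Nat.card (St.Acopy n) : ℝ))⁻¹ := by
  have hfin := E.fin n
  have hf : (St.Acopy n : Set St.A).Finite := hfin
  set Fa : Finset St.A := hf.toFinset with hFa
  have hcard : Fa.card = Nat.card (St.Acopy n) := by
    rw [hFa, ← Set.ncard_eq_toFinset_card _ hf]
    rfl
  have hpos : 0 < Fa.card := Finset.card_pos.2 ⟨0, by
    rw [hFa, Set.Finite.mem_toFinset]
    exact (St.Acopy n).zero_mem⟩
  set c : St.A × St.Fm.P → ℂ := fun p =>
    ((g.φ n p.2 : ℝ) : ℂ) * (((Nat.card (St.Acopy n) : ℂ))⁻¹ * Setup.sgn (St.tau n p.1)) with hc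
  set e : St.A × St.Fm.P → St.G := fun p => St.ofA p.1 * St.ofG (St.pos n p.2) with he
  have h1 : iota (St.Bel g.φ n) = ∑ p ∈ Fa ×ˢ St.Fm.X n, c p • dl (e p) := by
    unfold Setup.Bel Setup.Eel
    rw [finsum_mem_eq_finite_toFinset_sum _ hf, map_sum, Finset.sum_product_right]
    refine Finset.sum_congr rfl fun y _ => ?_
    rw [map_smul, Finset.sum_mul, map_sum, Finset.smul_sum]
    refine Finset.sum_congr rfl fun a _ => ?_
    rw [MonoidAlgebra.single_mul_single, mul_one, iota_single, smul_smul]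
  have hinj : Set.InjOn e (Fa ×ˢ St.Fm.X n : Finset (St.A × St.Fm.P)) := by
    rintro ⟨a, y⟩ hay ⟨b, z⟩ hbz h
    rw [Finset.mem_coe, Finset.mem_product] at hay hbz
    have hl := congrArg (fun x : St.G => x.left) h
    have hr := congrArg (fun x : St.G => x.right) h
    simp only [he, Setup.ofA, Setup.ofG, SemidirectProduct.mul_left, SemidirectProduct.mul_right,
      SemidirectProduct.left_inl, SemidirectProduct.right_inl, SemidirectProduct.left_inr,
      SemidirectProduct.right_inr, map_one, mul_one, one_mul] at hl hr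
    have hyz := E.pos_inj n y hay.2 z hbz.2 hr
    have hab : a = b := Multiplicative.ofAdd.injective hl
    rw [hab, hyz]
  have hinner : inner ℂ (iota (St.Bel g.φ n)) (iota (St.Bel g.φ n)) =
      ∑ p ∈ Fa ×ˢ St.Fm.X n, (starRingEnd ℂ) (c p) * c p := by
    rw [h1, inner_sum]
    refine Finset.sum_congr rfl fun p hp => ?_
    rw [inner_smul_right, sum_inner, Finset.sum_eq_single p, inner_smul_left,
      orthonormal_iff_ite.1 (orthonormal_dl St.G), if_pos rfl, mul_one, mul_comm]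
    · intro q hq hqp
      rw [inner_smul_left, orthonormal_iff_ite.1 (orthonormal_dl St.G), if_neg, mul_zero]
      exact fun h => hqp (hinj hq hp h)
    · exact fun h => absurd hp h
  have hterm : ∀ p, (starRingEnd ℂ) (c p) * c p =
      (((g.φ n p.2) ^ 2 * ((Nat.card (St.Acopy n) : ℝ))⁻¹ ^ 2 : ℝ) : ℂ) := by
    intro p
    rw [hc]
    simp only [map_mul, Complex.conj_ofReal, map_inv₀, conj_sgn, Complex.conj_natCast]
    push_cast
    have := sgn_mul_self (St.tau n p.1)
    linear_combination ((g.φ n p.2 : ℝ) : ℂ) ^ 2 * ((Nat.card (St.Acopy n) : ℂ))⁻¹ ^ 2 * this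
  have hsum : inner ℂ (iota (St.Bel g.φ n)) (iota (St.Bel g.φ n)) =
      (((Nat.card (St.Acopy n) : ℝ)⁻¹ : ℝ) : ℂ) := by
    rw [hinner, Finset.sum_congr rfl fun p _ => hterm p, ← Complex.ofReal_sum]
    congr 1
    rw [Finset.sum_product]
    simp only [← Finset.sum_mul, g.norm n, one_mul, Finset.sum_const, hcard, nsmul_eq_mul]
    have hne : (Nat.card (St.Acopy n) : ℝ) ≠ 0 := by
      rw [← hcard]
      exact_mod_cast hpos.ne'
    field_simp
  rw [inner_self_eq_norm_sq_to_K] at hsum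
  have h9 : ((‖iota (St.Bel g.φ n)‖ : ℂ)) ^ 2 = (((Nat.card (St.Acopy n) : ℝ)⁻¹ : ℝ) : ℂ) := hsum
  rw [← Complex.ofReal_pow] at h9
  exact Complex.ofReal_injective h9

end F5

theorem partF5 (h1 : PartF1) (h2 : PartF2) (h3 : PartE3) : PartF5 := by
  intro St M hb E cP ε g
  refine ⟨F5.adj_Tel St M, fun n => F5.adj_Bel St g.φ n (E.fin n), fun n m hnm => ?_, fun n => ?_,
    F5.Bel_Tel h1 h2 E g, F5.norm_Bel E g⟩
  · refine F5.faithful' St h1 fun χ f v => ?_
    rw [F5.rho_Bel_BelS h2 h3 M hb E, if_neg fun h => hnm h.1, map_zero]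
    rfl
  · refine F5.faithful' St h1 fun χ f v => ?_
    rw [F5.rho_mul_apply, F5.rho_Bel_BelS h2 h3 M hb E, g.norm n]
    by_cases hv : F5.act0 St χ n v
    · rw [if_pos ⟨rfl, hv⟩]
      simp
    · rw [if_neg fun h => hv h.2, ((h2 St E χ f v).2 g.φ n).1, if_neg hv]

end P089
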