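import Vale.Agent.Lib.P089.Interface2

/-!
# P089 F6: the inequality on finitely supported vectors
-/

namespace P089

open scoped Classical

noncomputable section

namespace Setup

variable (St : Setup)

/-- real part of a finitely supported function -/
def F6_re (f : St.Gm → ℂ) (hf : {v | f v ≠ 0}.Finite) : St.Gm →₀ ℝ :=
  Finsupp.ofSupportFinite (fun v => (f v).re) (hf.subset fun v hv => by
    intro h
    apply hv
    change (f v).re = 0
    rw [h, Complex.zero_re])

/-- imaginary part of a finitely supported function -/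
def F6_im (f : St.Gm → ℂ) (hf : {v | f v ≠ 0}.Finite) : St.Gm →₀ ℝ :=
  Finsupp.ofSupportFinite (fun v => (f v).im) (hf.subset fun v hv => by
    intro h
    apply hv
    change (f v).im = 0
    rw [h, Complex.zero_im])

theorem F6_EE (ω : St.Gm → Option (Finset St.S)) (g : St.Gm →₀ ℝ) (F : Finset St.Gm)
    (hg : ∀ v, v ∉ F → g v = 0) :
    EE St.d (cay _) ω g = ∑ v ∈ F, ((if (ω v).isSome then (St.d : ℝ) else 1) * g v ^ 2 -
      ∑ s, if link (cay _) ω v s then g v * g (cay _ v s) else 0) := by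
  unfold EE
  refine Finset.sum_subset ?_ ?_
  · intro v hv
    by_contra h
    exact Finsupp.mem_support_iff.1 hv (hg v h)
  · intro v _ hv
    have h : g v = 0 := Finsupp.notMem_support_iff.1 hv
    rw [h]
    simp

theorem F6_sq (g : St.Gm →₀ ℝ) (F : Finset St.Gm)
    (hg : ∀ v, v ∉ F → g v = 0) : ∑ v ∈ g.support, g v ^ 2 = ∑ v ∈ F, g v ^ 2 := by
  refine Finset.sum_subset ?_ ?_
  · intro v hv
    by_contra h
    exact Finsupp.mem_support_iff.1 hv (hg v h)
  · intro v _ hv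
    have h : g v = 0 := Finsupp.notMem_support_iff.1 hv
    rw [h]
    simp

theorem F6_re_sum {I : Type*} (s : Finset I) (p : I → Prop) (a : I → ℂ) :
    (∑ i ∈ s, if p i then a i else 0).re = ∑ i ∈ s, if p i then (a i).re else 0 := by
  rw [Complex.re_sum]
  refine Finset.sum_congr rfl fun i _ => ?_
  split_ifs
  · rfl
  · rfl

theorem F6_im_sum {I : Type*} (s : Finset I) (p : I → Prop) (a : I → ℂ) :
    (∑ i ∈ s, if p i then a i else 0).im = ∑ i ∈ s, if p i then (a i).im else 0 := by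
  rw [Complex.im_sum]
  refine Finset.sum_congr rfl fun i _ => ?_
  split_ifs
  · rfl
  · rfl

theorem F6_local (E : EProps St) (h2 : PartF2) (χ : St.A →ₗ[ZMod 2] ZMod 2)
    (φ : ℕ → St.Fm.P → ℝ) (K N : ℕ) (c0 : ℝ)
    (h3 : ∀ f : St.Gm →₀ ℝ, f.support.card ≤ K →
      c0 * (∑ v ∈ f.support, f v ^ 2 - ∑ n ∈ Finset.range N, St.PP φ n (St.om χ) f) ≤
        EE St.d (cay _) (St.om χ) f)
    (f : St.Gm → ℂ) (hf : {v | f v ≠ 0}.Finite) (hK : {v | f v ≠ 0}.ncard ≤ K)
    (F : Finset St.Gm) (hF : ∀ v, v ∉ F → f v = 0)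
    (hB : ∀ n ∈ Finset.range N, ∀ v, v ∉ F → St.rho χ (St.Bel φ n) f v = 0) :
    c0 * (∑ v ∈ F, ‖f v‖ ^ 2 -
        ∑ n ∈ Finset.range N, ∑ v ∈ F, ‖St.rho χ (St.Bel φ n) f v‖ ^ 2) ≤
      ∑ v ∈ F, ((starRingEnd ℂ) (St.rho χ St.Tel f v) * f v).re := by
  set g1 := St.F6_re f hf with hg1
  set g2 := St.F6_im f hf with hg2
  have e1 : ∀ v, g1 v = (f v).re := fun v => rfl
  have e2 : ∀ v, g2 v = (f v).im := fun v => rfl
  have z1 : ∀ v, v ∉ F → g1 v = 0 := fun v hv => by rw [e1, hF v hv, Complex.zero_re]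
  have z2 : ∀ v, v ∉ F → g2 v = 0 := fun v hv => by rw [e2, hF v hv, Complex.zero_im]
  have c1 : g1.support.card ≤ K := by
    refine le_trans ?_ hK
    rw [← Set.ncard_coe_finset]
    refine Set.ncard_le_ncard ?_ hf
    intro v hv h
    exact Finsupp.mem_support_iff.1 (Finset.mem_coe.1 hv) (by rw [e1, h, Complex.zero_re])
  have c2 : g2.support.card ≤ K := by
    refine le_trans ?_ hK
    rw [← Set.ncard_coe_finset]
    refine Set.ncard_le_ncard ?_ hf
    intro v hv h
    exact Finsupp.mem_support_iff.1 (Finset.mem_coe.1 hv) (by rw [e2, h, Complex.zero_im])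
  have i1 := h3 g1 c1
  have i2 := h3 g2 c2
  have hsq : ∑ v ∈ F, ‖f v‖ ^ 2 = ∑ v ∈ g1.support, g1 v ^ 2 + ∑ v ∈ g2.support, g2 v ^ 2 := by
    rw [St.F6_sq g1 F z1, St.F6_sq g2 F z2, ← Finset.sum_add_distrib]
    refine Finset.sum_congr rfl fun v _ => ?_
    rw [e1, e2, ← Complex.normSq_eq_norm_sq, Complex.normSq_apply]
    ring
  have hPP : ∀ n ∈ Finset.range N, ∑ v ∈ F, ‖St.rho χ (St.Bel φ n) f v‖ ^ 2 =
      St.PP φ n (St.om χ) g1 + St.PP φ n (St.om χ) g2 := by
    intro n hn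
    have hb : ∀ v, St.rho χ (St.Bel φ n) f v =
      if (∀ z ∈ St.Fm.X n, St.om χ (v * St.pos n z) = some (St.Fm.ty z)) then
        ∑ y ∈ St.Fm.X n, ((φ n y : ℝ) : ℂ) * f (v * St.pos n y) else 0 :=
      fun v => ((h2 St E χ f v).2 φ n).1
    have r1 : ∀ v, (if (∀ z ∈ St.Fm.X n, St.om χ (v * St.pos n z) = some (St.Fm.ty z)) then
        (∑ y ∈ St.Fm.X n, φ n y * g1 (v * St.pos n y)) ^ 2 else 0) =
          (St.rho χ (St.Bel φ n) f v).re ^ 2 := by
      intro v
      rw [hb v]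
      split_ifs
      · rw [Complex.re_sum]
        congr 1
        refine Finset.sum_congr rfl fun y _ => ?_
        rw [Complex.re_ofReal_mul, e1]
      · rw [Complex.zero_re]
        norm_num
    have r2 : ∀ v, (if (∀ z ∈ St.Fm.X n, St.om χ (v * St.pos n z) = some (St.Fm.ty z)) then
        (∑ y ∈ St.Fm.X n, φ n y * g2 (v * St.pos n y)) ^ 2 else 0) =
          (St.rho χ (St.Bel φ n) f v).im ^ 2 := by
      intro v
      rw [hb v]
      split_ifs
      · rw [Complex.im_sum]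
        congr 1
        refine Finset.sum_congr rfl fun y _ => ?_
        rw [Complex.im_ofReal_mul, e2]
      · rw [Complex.zero_im]
        norm_num
    have p1 : St.PP φ n (St.om χ) g1 = ∑ v ∈ F, (St.rho χ (St.Bel φ n) f v).re ^ 2 := by
      unfold PP
      rw [finsum_congr r1]
      refine finsum_eq_sum_of_support_subset _ ?_
      intro v hv
      by_contra h
      apply hv
      change (St.rho χ (St.Bel φ n) f v).re ^ 2 = 0
      rw [hB n hn v h, Complex.zero_re]
      norm_num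
    have p2 : St.PP φ n (St.om χ) g2 = ∑ v ∈ F, (St.rho χ (St.Bel φ n) f v).im ^ 2 := by
      unfold PP
      rw [finsum_congr r2]
      refine finsum_eq_sum_of_support_subset _ ?_
      intro v hv
      by_contra h
      apply hv
      change (St.rho χ (St.Bel φ n) f v).im ^ 2 = 0
      rw [hB n hn v h, Complex.zero_im]
      norm_num
    rw [p1, p2, ← Finset.sum_add_distrib]
    refine Finset.sum_congr rfl fun v _ => ?_
    rw [← Complex.normSq_eq_norm_sq, Complex.normSq_apply]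
    ring
  have hEE : ∑ v ∈ F, ((starRingEnd ℂ) (St.rho χ St.Tel f v) * f v).re =
      EE St.d (cay _) (St.om χ) g1 + EE St.d (cay _) (St.om χ) g2 := by
    rw [St.F6_EE _ g1 F z1, St.F6_EE _ g2 F z2, ← Finset.sum_add_distrib]
    refine Finset.sum_congr rfl fun v _ => ?_
    have hT := (h2 St E χ f v).1
    have hTre : (St.rho χ St.Tel f v).re =
        (if (St.om χ v).isSome then (St.d : ℝ) else 1) * g1 v -
          ∑ s, if link (cay _) (St.om χ) v s then g1 (cay _ v s) else 0 := by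
      rw [hT, Complex.sub_re, F6_re_sum]
      congr 1
      split_ifs
      · rw [← Complex.ofReal_natCast, Complex.re_ofReal_mul, e1]
      · rw [one_mul, one_mul, e1]
    have hTim : (St.rho χ St.Tel f v).im =
        (if (St.om χ v).isSome then (St.d : ℝ) else 1) * g2 v -
          ∑ s, if link (cay _) (St.om χ) v s then g2 (cay _ v s) else 0 := by
      rw [hT, Complex.sub_im, F6_im_sum]
      congr 1
      split_ifs
      · rw [← Complex.ofReal_natCast, Complex.im_ofReal_mul, e2]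
      · rw [one_mul, one_mul, e2]
    have hm : ∀ (g : St.Gm →₀ ℝ), (∑ s, if link (cay _) (St.om χ) v s then
        g v * g (cay _ v s) else 0) =
        g v * ∑ s, if link (cay _) (St.om χ) v s then g (cay _ v s) else 0 := by
      intro g
      rw [Finset.mul_sum]
      refine Finset.sum_congr rfl fun s _ => ?_
      rw [mul_ite, mul_zero]
    rw [hm g1, hm g2, Complex.mul_re, Complex.conj_re, Complex.conj_im, hTre, hTim, ← e1 v,
      ← e2 v]
    ring
  rw [hsq, hEE, Finset.sum_congr rfl hPP, Finset.sum_add_distrib]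
  linarith

end Setup

theorem partF6 : PartF1 → PartF2 → PartF3 → PartF6 := by
  intro h1 h2 h3 d h cP hd hh hcP
  obtain ⟨c0, L0, hc0, hc1, H⟩ := h3 d h cP hd hh hcP
  refine ⟨c0, L0, hc0, hc1, ?_⟩
  intro St hSt K0 ε hG M E g x
  obtain ⟨hfin, hpar⟩ := h1 St
  obtain ⟨N, hN⟩ := H St hSt K0 ε hG M E g x.coeff.support.card
  refine ⟨N, ?_⟩
  obtain ⟨C, hC, hCp⟩ := hpar ({x, St.Tel * x} ∪
    (Finset.range N).image fun n => St.Bel g.φ n * x)
  have mx : x ∈ ({x, St.Tel * x} ∪ (Finset.range N).image fun n => St.Bel g.φ n * x) := by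
    simp
  have mT : St.Tel * x ∈ ({x, St.Tel * x} ∪ (Finset.range N).image fun n => St.Bel g.φ n * x) := by
    simp
  have mB : ∀ n ∈ Finset.range N, St.Bel g.φ n * x ∈
      ({x, St.Tel * x} ∪ (Finset.range N).image fun n => St.Bel g.φ n * x) := by
    intro n hn
    exact Finset.mem_union_right _ (Finset.mem_image_of_mem _ hn)
  have hC0 : (0 : ℝ) < C.card := by
    exact_mod_cast Finset.card_pos.2 hC
  have hatm : ∀ χ (y : MonoidAlgebra ℂ St.G), St.hat χ (y * x) = St.rho χ y (St.hat χ x) := by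
    intro χ y
    unfold Setup.hat
    rw [map_mul]
    rfl
  -- a common finite support
  have hFs : ∀ χ, ∃ F : Finset St.Gm, (∀ v, v ∉ F → St.hat χ x v = 0) ∧
      ∀ n ∈ Finset.range N, ∀ v, v ∉ F → St.rho χ (St.Bel g.φ n) (St.hat χ x) v = 0 := by
    intro χ
    refine ⟨(hfin χ x).1.toFinset ∪
      (Finset.range N).biUnion fun n => (hfin χ (St.Bel g.φ n * x)).1.toFinset, ?_, ?_⟩
    · intro v hv
      by_contra hne
      exact hv (Finset.mem_union_left _ ((hfin χ x).1.mem_toFinset.2 hne))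
    · intro n hn v hv
      by_contra hne
      apply hv
      refine Finset.mem_union_right _ (Finset.mem_biUnion.2 ⟨n, hn, ?_⟩)
      refine (hfin χ (St.Bel g.φ n * x)).1.mem_toFinset.2 ?_
      change St.hat χ (St.Bel g.φ n * x) v ≠ 0
      rw [hatm]
      exact hne
  choose F hF1 hF2 using hFs
  have hloc : ∀ χ, c0 * (∑ v ∈ F χ, ‖St.hat χ x v‖ ^ 2 -
        ∑ n ∈ Finset.range N, ∑ v ∈ F χ, ‖St.rho χ (St.Bel g.φ n) (St.hat χ x) v‖ ^ 2) ≤
      ∑ v ∈ F χ, ((starRingEnd ℂ) (St.rho χ St.Tel (St.hat χ x) v) * St.hat χ x v).re :=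
    fun χ => St.F6_local E h2 χ g.φ _ N c0 (hN χ) (St.hat χ x) (hfin χ x).1 (hfin χ x).2 (F χ)
      (hF1 χ) (hF2 χ)
  have hsum := Finset.sum_le_sum fun χ (_ : χ ∈ C) => hloc χ
  rw [← Finset.mul_sum, Finset.sum_sub_distrib] at hsum
  -- Parseval
  have hself : ∀ y ∈ ({x, St.Tel * x} ∪ (Finset.range N).image fun n => St.Bel g.φ n * x),
      (∀ χ, ∀ v, v ∉ F χ → St.hat χ y v = 0) →
      (C.card : ℝ) * ‖iota y‖ ^ 2 = ∑ χ ∈ C, ∑ v ∈ F χ, ‖St.hat χ y v‖ ^ 2 := by
    intro y hy hyF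
    have q := hCp y hy y hy
    have q1 : ∀ χ ∈ C, ∑ᶠ v, (starRingEnd ℂ) (St.hat χ y v) * St.hat χ y v =
        ((∑ v ∈ F χ, ‖St.hat χ y v‖ ^ 2 : ℝ) : ℂ) := by
      intro χ _
      rw [finsum_eq_sum_of_support_subset (s := F χ)]
      · push_cast
        refine Finset.sum_congr rfl fun v _ => ?_
        rw [← Complex.normSq_eq_conj_mul_self, Complex.normSq_eq_norm_sq]
        push_cast
        rfl
      · intro v hv
        by_contra hne
        apply hv
        change (starRingEnd ℂ) (St.hat χ y v) * St.hat χ y v = 0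
        rw [hyF χ v hne, mul_zero]
    rw [Finset.sum_congr rfl q1, inner_self_eq_norm_sq_to_K] at q
    have q2 : (((C.card : ℝ) * ‖iota y‖ ^ 2 : ℝ) : ℂ) =
        ((∑ χ ∈ C, ∑ v ∈ F χ, ‖St.hat χ y v‖ ^ 2 : ℝ) : ℂ) := by
      push_cast
      rw [← Complex.ofReal_natCast] at q
      push_cast at q
      exact q
    exact_mod_cast q2
  have hx := hself x mx hF1
  have hB : (C.card : ℝ) * ∑ n ∈ Finset.range N, ‖iota (St.Bel g.φ n * x)‖ ^ 2 =
      ∑ χ ∈ C, ∑ n ∈ Finset.range N, ∑ v ∈ F χ,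
        ‖St.rho χ (St.Bel g.φ n) (St.hat χ x) v‖ ^ 2 := by
    rw [Finset.mul_sum, Finset.sum_comm]
    refine Finset.sum_congr rfl fun n hn => ?_
    rw [hself _ (mB n hn) (fun χ v hv => by rw [hatm]; exact hF2 χ n hn v hv)]
    refine Finset.sum_congr rfl fun χ _ => ?_
    refine Finset.sum_congr rfl fun v _ => ?_
    rw [hatm]
  have hT : (C.card : ℝ) * (inner ℂ (iota (St.Tel * x)) (iota x)).re =
      ∑ χ ∈ C, ∑ v ∈ F χ, ((starRingEnd ℂ) (St.rho χ St.Tel (St.hat χ x) v) *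
        St.hat χ x v).re := by
    have q := congrArg Complex.re (hCp (St.Tel * x) mT x mx)
    rw [Complex.re_sum, ← Complex.ofReal_natCast, Complex.re_ofReal_mul] at q
    rw [q]
    refine Finset.sum_congr rfl fun χ _ => ?_
    rw [← Complex.re_sum]
    congr 1
    rw [finsum_eq_sum_of_support_subset (s := F χ)]
    · refine Finset.sum_congr rfl fun v _ => ?_
      rw [hatm]
    · intro v hv
      by_contra hne
      apply hv
      change (starRingEnd ℂ) (St.hat χ (St.Tel * x) v) * St.hat χ x v = 0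
      rw [hF1 χ v hne, mul_zero]
  rw [← hx, ← hB, ← hT, ← mul_sub] at hsum
  have : (C.card : ℝ) * (c0 * (‖iota x‖ ^ 2 -
      ∑ n ∈ Finset.range N, ‖iota (St.Bel g.φ n * x)‖ ^ 2)) ≤
      C.card * (inner ℂ (iota (St.Tel * x)) (iota x)).re := by
    calc _ = c0 * ((C.card : ℝ) * (‖iota x‖ ^ 2 -
      ∑ n ∈ Finset.range N, ‖iota (St.Bel g.φ n * x)‖ ^ 2)) := by ring
      _ ≤ _ := hsum
  exact le_of_mul_le_mul_left this hC0

end

end P089
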