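import Vale.Agent.Lib.P089.Interface3
import Vale.Agent.Lib.P089.F.PF5

/-!
# P089, parts F7, F8
-/

namespace P089

open scoped Classical

namespace F7

variable (St : Setup)

/-- `e (a, y) = a · pos y` -/
noncomputable def e (m : ℕ) (p : St.A × St.Fm.P) : St.G := St.ofA p.1 * St.ofG (St.pos m p.2)

theorem e_mul_ofA (m : ℕ) (p : St.A × St.Fm.P) {z : St.A} (hz : ∀ γ, St.actA γ z = z) :
    e St m p * St.ofA z = e St m (p.1 + z, p.2) := by
  unfold e Setup.ofA Setup.ofG
  refine SemidirectProduct.ext ?_ ?_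
  · simp only [SemidirectProduct.mul_left, SemidirectProduct.mul_right,
      SemidirectProduct.left_inl, SemidirectProduct.right_inl, SemidirectProduct.left_inr,
      SemidirectProduct.right_inr, map_one, mul_one, one_mul]
    change Multiplicative.ofAdd p.1 * Multiplicative.ofAdd (St.actA (St.pos m p.2) z) =
      Multiplicative.ofAdd (p.1 + z)
    rw [hz]
    rfl
  · simp only [SemidirectProduct.mul_right, SemidirectProduct.right_inl,
      SemidirectProduct.right_inr, mul_one, one_mul]

theorem e_inj (E : EProps St) (m : ℕ) {p q : St.A × St.Fm.P} (hp : p.2 ∈ St.Fm.X m)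
    (hq : q.2 ∈ St.Fm.X m) (h : e St m p = e St m q) : p = q := by
  have hl := congrArg (fun x : St.G => x.left) h
  have hr := congrArg (fun x : St.G => x.right) h
  simp only [e, Setup.ofA, Setup.ofG, SemidirectProduct.mul_left, SemidirectProduct.mul_right,
    SemidirectProduct.left_inl, SemidirectProduct.right_inl, SemidirectProduct.left_inr,
    SemidirectProduct.right_inr, map_one, mul_one, one_mul] at hl hr
  have hyz := E.pos_inj m p.2 hp q.2 hq hr
  have hab : p.1 = q.1 := Multiplicative.ofAdd.injective hl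
  exact Prod.ext hab hyz

end F7

theorem partF7 : PartF7 := by
  intro St E φ hφ z hz m
  have hfin := E.fin m
  have hf : (St.Acopy m : Set St.A).Finite := hfin
  set Fa : Finset St.A := hf.toFinset with hFa
  have hmemFa : ∀ a, a ∈ Fa ↔ a ∈ St.Acopy m := fun a => by
    rw [hFa, Set.Finite.mem_toFinset]
    rfl
  have hcard : Fa.card = Nat.card (St.Acopy m) := by
    rw [hFa, ← Set.ncard_eq_toFinset_card _ hf]
    rfl
  have hpos : 0 < Fa.card := Finset.card_pos.2 ⟨0, (hmemFa 0).2 (St.Acopy m).zero_mem⟩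
  set c : St.A × St.Fm.P → ℂ := fun p =>
    ((φ m p.2 : ℝ) : ℂ) * (((Nat.card (St.Acopy m) : ℂ))⁻¹ * Setup.sgn (St.tau m p.1)) with hc
  have hB : St.Bel φ m = ∑ p ∈ Fa ×ˢ St.Fm.X m, MonoidAlgebra.single (F7.e St m p) (c p) := by
    unfold Setup.Bel Setup.Eel
    rw [finsum_mem_eq_finite_toFinset_sum _ hf, Finset.sum_product_right]
    refine Finset.sum_congr rfl fun y _ => ?_
    rw [Finset.sum_mul, Finset.smul_sum]
    refine Finset.sum_congr rfl fun a _ => ?_
    rw [MonoidAlgebra.single_mul_single, mul_one, MonoidAlgebra.smul_single, smul_eq_mul]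
    rfl
  have h1 : iota (St.Bel φ m) = ∑ p ∈ Fa ×ˢ St.Fm.X m, c p • dl (F7.e St m p) := by
    rw [hB, map_sum]
    exact Finset.sum_congr rfl fun p _ => F5.iota_single _ _
  have h2 : iota (St.Bel φ m * MonoidAlgebra.single (St.ofA z) 1) =
      ∑ p ∈ Fa ×ˢ St.Fm.X m, c p • dl (F7.e St m (p.1 + z, p.2)) := by
    rw [hB, Finset.sum_mul, map_sum]
    refine Finset.sum_congr rfl fun p _ => ?_
    rw [MonoidAlgebra.single_mul_single, mul_one, F7.e_mul_ofA St m p hz, F5.iota_single]
  have hinner : inner ℂ (iota (St.Bel φ m))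
      (iota (St.Bel φ m * MonoidAlgebra.single (St.ofA z) 1)) =
      ∑ q ∈ Fa ×ˢ St.Fm.X m, if z ∈ St.Acopy m then
        (starRingEnd ℂ) (c (q.1 + z, q.2)) * c q else 0 := by
    rw [h1, h2, inner_sum]
    refine Finset.sum_congr rfl fun q hq => ?_
    rw [Finset.mem_product] at hq
    rw [inner_smul_right, sum_inner]
    by_cases hzm : z ∈ St.Acopy m
    · rw [if_pos hzm, Finset.sum_eq_single (q.1 + z, q.2), inner_smul_left,
        orthonormal_iff_ite.1 (F5.orthonormal_dl St.G), if_pos rfl, mul_one, mul_comm]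
      · intro p hp hpq
        rw [Finset.mem_product] at hp
        rw [inner_smul_left, orthonormal_iff_ite.1 (F5.orthonormal_dl St.G), if_neg, mul_zero]
        exact fun h => hpq (F7.e_inj St E m (q := (q.1 + z, q.2)) hp.2 hq.2 h)
      · intro h
        refine absurd ?_ h
        rw [Finset.mem_product]
        exact ⟨(hmemFa _).2 ((St.Acopy m).add_mem ((hmemFa _).1 hq.1) hzm), hq.2⟩
    · rw [if_neg hzm, Finset.sum_eq_zero, mul_zero]
      intro p hp
      rw [Finset.mem_product] at hp
      rw [inner_smul_left, orthonormal_iff_ite.1 (F5.orthonormal_dl St.G), if_neg, mul_zero]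
      intro h
      have h3 := F7.e_inj St E m (q := (q.1 + z, q.2)) hp.2 hq.2 h
      apply hzm
      have h4 : p.1 = q.1 + z := congrArg Prod.fst h3
      have h5 : z = p.1 - q.1 := by rw [h4]; abel
      rw [h5]
      exact (St.Acopy m).sub_mem ((hmemFa _).1 hp.1) ((hmemFa _).1 hq.1)
  rw [hinner]
  by_cases hzm : z ∈ St.Acopy m
  · simp only [if_pos hzm]
    have hterm : ∀ q : St.A × St.Fm.P, (starRingEnd ℂ) (c (q.1 + z, q.2)) * c q =
        (((φ m q.2) ^ 2 : ℝ) : ℂ) * (((Nat.card (St.Acopy m) : ℂ))⁻¹ ^ 2 *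
          Setup.sgn (St.tau m z)) := by
      intro q
      rw [hc]
      simp only [map_mul, Complex.conj_ofReal, map_inv₀, F5.conj_sgn, Complex.conj_natCast]
      rw [map_add, Setup.sgn_add]
      push_cast
      have := F5.sgn_mul_self (St.tau m q.1)
      linear_combination ((φ m q.2 : ℝ) : ℂ) ^ 2 * ((Nat.card (St.Acopy m) : ℂ))⁻¹ ^ 2 *
        Setup.sgn (St.tau m z) * this
    rw [Finset.sum_congr rfl fun q _ => hterm q, ← Finset.sum_mul, Finset.sum_product]
    simp only [← Complex.ofReal_sum, hφ m, Finset.sum_const, hcard, nsmul_eq_mul]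
    have hne : (Nat.card (St.Acopy m) : ℂ) ≠ 0 := by
      rw [← hcard]
      exact_mod_cast hpos.ne'
    push_cast
    field_simp
  · simp only [if_neg hzm, Finset.sum_const_zero]

theorem partF8 : PartF8 := by
  intro G _ x g
  rw [← norm_comp (Equiv.mulRight g⁻¹) (iota x)]
  congr 1
  ext h
  rw [iota_apply]
  change _ = iota x (h * g⁻¹)
  rw [iota_apply]
  rw [MonoidAlgebra.coeff_mul_single_eq_coeff_mul (m₂ := h * g⁻¹) (by
    intro m' _
    constructor
    · rintro rfl
      rw [mul_inv_cancel_right]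
    · rintro rfl
      rw [inv_mul_cancel_right]), mul_one]

end P089
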