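import Mathlib

/-!
# P089, part F, module F1: the abstract spectral lemma

`T` self-adjoint, `P n` pairwise orthogonal projections, `T P_n = lam_n P_n`, `lam_n ≤ ε < c₀`, and
`⟨T ξ, ξ⟩ ≥ c₀ (‖ξ‖² - ∑_{n<N} ‖P_n ξ‖²)` (some `N`) for `ξ` in a dense set.  Then the strong sum `Q = ∑ P_n`
is `f(T)` for a continuous function `f`.
-/

open Filter Topology
open scoped InnerProductSpace

namespace P089

namespace F

variable {H : Type*} [NormedAddCommGroup H] [InnerProductSpace ℂ H] [CompleteSpace H]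

private theorem F1_inner_star (B : H →L[ℂ] H) (x y : H) : inner ℂ (B x) y = inner ℂ x (star B y) := by
  rw [ContinuousLinearMap.star_eq_adjoint, ContinuousLinearMap.adjoint_inner_right]

/-- `B = √g(T)`, `P = g(T)` with `T' B B = P P`; if `Re ⟨T' ζ, ζ⟩ ≤ 0` on the range of `E` and `B`
commutes with `E` then `P E = 0` -/
private theorem F1_kill (T' B P E : H →L[ℂ] H) (hB : star B = B) (hP : star P = P)
    (hBT : B * T' = T' * B) (h : T' * B * B = P * P) (hBE : B * E = E * B)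
    (hneg : ∀ η : H, (inner ℂ (T' (E η)) (E η)).re ≤ 0) (η : H) : P (E η) = 0 := by
  have h1 := hneg (B η)
  have e1 : E (B η) = B (E η) := by
    have := congrArg (fun X : H →L[ℂ] H => X η) hBE
    exact this.symm
  rw [e1] at h1
  have e2 : inner ℂ (T' (B (E η))) (B (E η)) = inner ℂ (P (E η)) (P (E η)) := by
    have a1 : inner ℂ (T' (B (E η))) (B (E η)) = inner ℂ ((B * T' * B) (E η)) (E η) := by
      have := F1_inner_star B (T' (B (E η))) (E η)
      rw [hB] at this
      exact this.symm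
    have a2 : inner ℂ (P (E η)) (P (E η)) = inner ℂ ((P * P) (E η)) (E η) := by
      have := F1_inner_star P (P (E η)) (E η)
      rw [hP] at this
      exact this.symm
    rw [a1, a2, hBT, h]
  rw [e2, inner_self_eq_norm_sq_to_K] at h1
  have h2 : ‖P (E η)‖ ^ 2 ≤ 0 := by
    have : (((‖P (E η)‖ : ℂ)) ^ 2).re = ‖P (E η)‖ ^ 2 := by
      rw [← Complex.ofReal_pow, Complex.ofReal_re]
    rw [← this]
    exact h1
  have h3 : ‖P (E η)‖ = 0 := by
    have := sq_nonneg ‖P (E η)‖
    have h4 : ‖P (E η)‖ ^ 2 = 0 := le_antisymm h2 this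
    exact pow_eq_zero_iff (two_ne_zero) |>.1 h4
  exact norm_eq_zero.1 h3

/-- the cut-off function -/
noncomputable def cutf (ε c₀ t : ℝ) : ℝ := max (c₀ - t) 0 / max (c₀ - ε) (c₀ - t)

theorem continuous_cutf {ε c₀ : ℝ} (hε : ε < c₀) : Continuous (cutf ε c₀) := by
  unfold cutf
  refine Continuous.div (by fun_prop) (by fun_prop) fun t => ?_
  exact (lt_max_of_lt_left (sub_pos.2 hε)).ne'

theorem one_sub_cutf {ε c₀ : ℝ} (hε : ε < c₀) (t : ℝ) :
    1 - cutf ε c₀ t = (max (c₀ - ε) (t - ε))⁻¹ * max (t - ε) 0 := by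
  unfold cutf
  have h0 : 0 < c₀ - ε := sub_pos.2 hε
  rcases le_total t ε with h | h
  · rw [max_eq_left (by linarith : (0 : ℝ) ≤ c₀ - t), max_eq_right (by linarith : c₀ - ε ≤ c₀ - t),
      max_eq_right (by linarith : t - ε ≤ 0), mul_zero, div_self (by linarith), sub_self]
  · rcases le_total t c₀ with h' | h'
    · rw [max_eq_left (by linarith : (0 : ℝ) ≤ c₀ - t), max_eq_left (by linarith : c₀ - t ≤ c₀ - ε),
        max_eq_left (by linarith : (0 : ℝ) ≤ t - ε), max_eq_left (by linarith : t - ε ≤ c₀ - ε)]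
      field_simp
      ring
    · rw [max_eq_right (by linarith : c₀ - t ≤ 0), zero_div, sub_zero,
        max_eq_left (by linarith : (0 : ℝ) ≤ t - ε), max_eq_right (by linarith : c₀ - ε ≤ t - ε),
        inv_mul_cancel₀ (by linarith)]

theorem cutf_eq {ε c₀ : ℝ} (t : ℝ) :
    cutf ε c₀ t = (max (c₀ - ε) (c₀ - t))⁻¹ * max (c₀ - t) 0 := by
  unfold cutf
  rw [div_eq_inv_mul]

/-- functional calculus part -/
private theorem F1_cfc (T Q : H →L[ℂ] H) (hT : IsSelfAdjoint T) (hQT : Q * T = T * Q)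
    {ε c₀ : ℝ} (hε : ε < c₀)
    (h1 : ∀ η : H, (inner ℂ (T (Q η)) (Q η)).re ≤ ε * ‖Q η‖ ^ 2)
    (h2 : ∀ η : H, c₀ * ‖(1 - Q) η‖ ^ 2 ≤ (inner ℂ (T ((1 - Q) η)) ((1 - Q) η)).re) :
    cfc (cutf ε c₀) T = Q := by
  have hcm : ∀ g : ℝ → ℝ, Q * cfc g T = cfc g T * Q := by
    intro g
    exact ((Commute.cfc_real (b := Q) (show Commute T Q from hQT.symm) g).symm)
  have hsa : ∀ g : ℝ → ℝ, star (cfc g T) = cfc g T := fun g => (cfc_predicate g T).star_eq
  -- lower part
  have key1 : ∀ η, cfc (fun t => max (t - ε) 0) T (Q η) = 0 := by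
    refine F1_kill (T - algebraMap ℝ _ ε) (cfc (fun t => √(max (t - ε) 0)) T) _ Q (hsa _) (hsa _)
      ?_ ?_ (hcm _).symm ?_
    · have e : T - algebraMap ℝ _ ε = cfc (fun t => t - ε) T := by
        rw [cfc_sub _ _ T (by fun_prop) (by fun_prop), cfc_id' ℝ T, cfc_const ε T]
      rw [e, ← cfc_mul _ _ T (by fun_prop) (by fun_prop), ← cfc_mul _ _ T (by fun_prop) (by fun_prop)]
      simp only [mul_comm]
    · have e : T - algebraMap ℝ _ ε = cfc (fun t => t - ε) T := by
        rw [cfc_sub _ _ T (by fun_prop) (by fun_prop), cfc_id' ℝ T, cfc_const ε T]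
      rw [e, ← cfc_mul _ _ T (by fun_prop) (by fun_prop), ← cfc_mul _ _ T (by fun_prop) (by fun_prop),
        ← cfc_mul _ _ T (by fun_prop) (by fun_prop)]
      refine cfc_congr fun t _ => ?_
      change (t - ε) * √(max (t - ε) 0) * √(max (t - ε) 0) = max (t - ε) 0 * max (t - ε) 0
      rw [mul_assoc, Real.mul_self_sqrt (le_max_right _ _)]
      rcases le_total (t - ε) 0 with h | h
      · rw [max_eq_right h, mul_zero, mul_zero]
      · rw [max_eq_left h]
    · intro η
      have h3 := h1 η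
      have e : (inner ℂ ((T - algebraMap ℝ (H →L[ℂ] H) ε) (Q η)) (Q η)) =
          inner ℂ (T (Q η)) (Q η) - (ε : ℂ) * ((‖Q η‖ : ℂ) ^ 2) := by
        have e1 : (T - algebraMap ℝ (H →L[ℂ] H) ε) (Q η) = T (Q η) - (ε : ℂ) • Q η := by
          rw [Algebra.algebraMap_eq_smul_one]
          change T (Q η) - (ε • (1 : H →L[ℂ] H)) (Q η) = _
          congr 1
        rw [e1, inner_sub_left, inner_smul_left, inner_self_eq_norm_sq_to_K, Complex.conj_ofReal]
        rfl
      rw [e, Complex.sub_re, ← Complex.ofReal_pow, ← Complex.ofReal_mul, Complex.ofReal_re]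
      linarith
  have key2 : ∀ η, cfc (fun t => max (c₀ - t) 0) T ((1 - Q) η) = 0 := by
    refine F1_kill (algebraMap ℝ _ c₀ - T) (cfc (fun t => √(max (c₀ - t) 0)) T) _ (1 - Q) (hsa _)
      (hsa _) ?_ ?_ (by rw [mul_sub, sub_mul, mul_one, one_mul, hcm]) ?_
    · have e : algebraMap ℝ _ c₀ - T = cfc (fun t => c₀ - t) T := by
        rw [cfc_sub _ _ T (by fun_prop) (by fun_prop), cfc_id' ℝ T, cfc_const c₀ T]
      rw [e, ← cfc_mul _ _ T (by fun_prop) (by fun_prop), ← cfc_mul _ _ T (by fun_prop) (by fun_prop)]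
      simp only [mul_comm]
    · have e : algebraMap ℝ _ c₀ - T = cfc (fun t => c₀ - t) T := by
        rw [cfc_sub _ _ T (by fun_prop) (by fun_prop), cfc_id' ℝ T, cfc_const c₀ T]
      rw [e, ← cfc_mul _ _ T (by fun_prop) (by fun_prop), ← cfc_mul _ _ T (by fun_prop) (by fun_prop),
        ← cfc_mul _ _ T (by fun_prop) (by fun_prop)]
      refine cfc_congr fun t _ => ?_
      change (c₀ - t) * √(max (c₀ - t) 0) * √(max (c₀ - t) 0) = max (c₀ - t) 0 * max (c₀ - t) 0
      rw [mul_assoc, Real.mul_self_sqrt (le_max_right _ _)]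
      rcases le_total (c₀ - t) 0 with h | h
      · rw [max_eq_right h, mul_zero, mul_zero]
      · rw [max_eq_left h]
    · intro η
      have h3 := h2 η
      have e : (inner ℂ ((algebraMap ℝ (H →L[ℂ] H) c₀ - T) ((1 - Q) η)) ((1 - Q) η)) =
          (c₀ : ℂ) * ((‖(1 - Q) η‖ : ℂ) ^ 2) - inner ℂ (T ((1 - Q) η)) ((1 - Q) η) := by
        have e1 : (algebraMap ℝ (H →L[ℂ] H) c₀ - T) ((1 - Q) η) =
            (c₀ : ℂ) • (1 - Q) η - T ((1 - Q) η) := by
          rw [Algebra.algebraMap_eq_smul_one]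
          change (c₀ • (1 : H →L[ℂ] H)) ((1 - Q) η) - T ((1 - Q) η) = _
          congr 1
        rw [e1, inner_sub_left, inner_smul_left, inner_self_eq_norm_sq_to_K, Complex.conj_ofReal]
        rfl
      rw [e, Complex.sub_re, ← Complex.ofReal_pow, ← Complex.ofReal_mul, Complex.ofReal_re]
      linarith
  have hc1 : Continuous fun t : ℝ => (max (c₀ - ε) (t - ε))⁻¹ :=
    Continuous.inv₀ (by fun_prop) fun t => (lt_max_of_lt_left (sub_pos.2 hε)).ne'
  have hc2 : Continuous fun t : ℝ => (max (c₀ - ε) (c₀ - t))⁻¹ :=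
    Continuous.inv₀ (by fun_prop) fun t => (lt_max_of_lt_left (sub_pos.2 hε)).ne'
  have hcut := continuous_cutf hε
  have f1 : 1 - cfc (cutf ε c₀) T =
      cfc (fun t => (max (c₀ - ε) (t - ε))⁻¹) T * cfc (fun t => max (t - ε) 0) T := by
    rw [← cfc_mul _ _ T hc1.continuousOn (by fun_prop), ← cfc_one ℝ T,
      ← cfc_sub _ _ T (by fun_prop) hcut.continuousOn]
    exact cfc_congr fun t _ => one_sub_cutf hε t
  have f2 : cfc (cutf ε c₀) T =
      cfc (fun t => (max (c₀ - ε) (c₀ - t))⁻¹) T * cfc (fun t => max (c₀ - t) 0) T := by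
    rw [← cfc_mul _ _ T hc2.continuousOn (by fun_prop)]
    exact cfc_congr fun t _ => cutf_eq t
  refine ContinuousLinearMap.ext fun η => ?_
  have g1 : (1 - cfc (cutf ε c₀) T) (Q η) = 0 := by
    rw [f1]
    change (cfc (fun t => (max (c₀ - ε) (t - ε))⁻¹) T) (cfc (fun t => max (t - ε) 0) T (Q η)) = 0
    rw [key1, map_zero]
  have g2 : cfc (cutf ε c₀) T ((1 - Q) η) = 0 := by
    rw [f2]
    change (cfc (fun t => (max (c₀ - ε) (c₀ - t))⁻¹) T)
      (cfc (fun t => max (c₀ - t) 0) T ((1 - Q) η)) = 0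
    rw [key2, map_zero]
  have g3 : cfc (cutf ε c₀) T (Q η) = Q η := by
    have : Q η - cfc (cutf ε c₀) T (Q η) = 0 := g1
    exact (sub_eq_zero.1 this).symm
  have g4 : cfc (cutf ε c₀) T η - cfc (cutf ε c₀) T (Q η) = 0 := by
    rw [← map_sub]
    exact g2
  rw [sub_eq_zero.1 g4, g3]

section Main

variable (P : ℕ → H →L[ℂ] H)

/-- partial sums -/
noncomputable def psum (N : ℕ) : H →L[ℂ] H := ∑ n ∈ Finset.range N, P n

variable {P}

omit [CompleteSpace H] in
private theorem F1_psum_apply (N : ℕ) (x : H) : psum P N x = ∑ n ∈ Finset.range N, P n x := by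
  unfold psum
  rw [sum_apply]

omit [CompleteSpace H] in
private theorem F1_psum_mul (hPi : ∀ n, P n * P n = P n) (hPo : ∀ n m, n ≠ m → P n * P m = 0)
    (N m : ℕ) : psum P N * P m = if m < N then P m else 0 := by
  unfold psum
  rw [Finset.sum_mul]
  split_ifs with h
  · rw [Finset.sum_eq_single m (fun j _ hj => hPo j m hj)
      (fun hm => absurd (Finset.mem_range.2 h) hm), hPi]
  · refine Finset.sum_eq_zero fun j hj => hPo j m ?_
    have := Finset.mem_range.1 hj
    omega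

private theorem F1_psum_star (hPs : ∀ n, IsSelfAdjoint (P n)) (N : ℕ) :
    star (psum P N) = psum P N := by
  unfold psum
  rw [star_sum]
  exact Finset.sum_congr rfl fun n _ => (hPs n).star_eq

omit [CompleteSpace H] in
private theorem F1_psum_mul_psum (hPi : ∀ n, P n * P n = P n)
    (hPo : ∀ n m, n ≠ m → P n * P m = 0) {N M : ℕ} (h : M ≤ N) :
    psum P N * psum P M = psum P M := by
  conv_lhs => rw [show psum P M = ∑ n ∈ Finset.range M, P n from rfl]
  rw [Finset.mul_sum]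
  refine Finset.sum_congr rfl fun n hn => ?_
  rw [F1_psum_mul hPi hPo, if_pos ((Finset.mem_range.1 hn).trans_le h)]

private theorem F1_norm_sq (hPs : ∀ n, IsSelfAdjoint (P n)) (hPi : ∀ n, P n * P n = P n)
    (hPo : ∀ n m, n ≠ m → P n * P m = 0) (N : ℕ) (x : H) :
    ‖psum P N x‖ ^ 2 = ∑ n ∈ Finset.range N, ‖P n x‖ ^ 2 := by
  have hn : ∀ n, (‖P n x‖ ^ 2 : ℝ) = (inner ℂ (P n x) x).re := by
    intro n
    have h1 : inner ℂ (P n x) (P n x) = inner ℂ (P n x) x := by
      rw [F1_inner_star (P n) x (P n x), (hPs n).star_eq]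
      change inner ℂ x ((P n * P n) x) = _
      rw [hPi, F1_inner_star (P n) x x, (hPs n).star_eq]
    rw [← h1, inner_self_eq_norm_sq_to_K]
    change _ = (((‖P n x‖ : ℝ) : ℂ) ^ 2).re
    rw [← Complex.ofReal_pow, Complex.ofReal_re]
  have hN : (‖psum P N x‖ ^ 2 : ℝ) = (inner ℂ (psum P N x) x).re := by
    have h1 : inner ℂ (psum P N x) (psum P N x) = inner ℂ (psum P N x) x := by
      rw [F1_inner_star (psum P N) x (psum P N x), F1_psum_star hPs]
      change inner ℂ x ((psum P N * psum P N) x) = _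
      rw [F1_psum_mul_psum hPi hPo le_rfl, F1_inner_star (psum P N) x x, F1_psum_star hPs]
    rw [← h1, inner_self_eq_norm_sq_to_K]
    change _ = (((‖psum P N x‖ : ℝ) : ℂ) ^ 2).re
    rw [← Complex.ofReal_pow, Complex.ofReal_re]
  rw [hN, F1_psum_apply, sum_inner, Complex.re_sum]
  exact Finset.sum_congr rfl fun n _ => (hn n).symm

/-- the abstract spectral lemma -/
theorem spectral_projection {T : H →L[ℂ] H} (hT : IsSelfAdjoint T)
    (hPs : ∀ n, IsSelfAdjoint (P n)) (hPi : ∀ n, P n * P n = P n)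
    (hPo : ∀ n m, n ≠ m → P n * P m = 0) {lam : ℕ → ℝ} {ε c₀ : ℝ} (hε : ε < c₀) (hc₀ : 0 ≤ c₀)
    (hlam : ∀ n, lam n ≤ ε) (hTP : ∀ n, T * P n = ((lam n : ℝ) : ℂ) • P n) {D : Set H}
    (hD : Dense D)
    (hlow : ∀ ξ ∈ D, ∃ N : ℕ, c₀ * (‖ξ‖ ^ 2 - ∑ n ∈ Finset.range N, ‖P n ξ‖ ^ 2) ≤
      (inner ℂ (T ξ) ξ).re) :
    IsSelfAdjoint (cfc (cutf ε c₀) T) ∧
      cfc (cutf ε c₀) T * cfc (cutf ε c₀) T = cfc (cutf ε c₀) T ∧
      ∀ ξ, Tendsto (fun N => ∑ n ∈ Finset.range N, P n ξ) atTop (𝓝 (cfc (cutf ε c₀) T ξ)) := by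
  have hproj : ∀ N, IsStarProjection (psum P N) := fun N =>
    ⟨F1_psum_mul_psum hPi hPo le_rfl, F1_psum_star hPs N⟩
  choose hop heq using fun N => isStarProjection_iff_eq_starProjection_range.1 (hproj N)
  set U : ℕ → Submodule ℂ H := fun N => (psum P N).range with hU
  have : ∀ N, (U N).HasOrthogonalProjection := hop
  have hmono : Monotone U := by
    intro M N h x hx
    obtain ⟨y, rfl⟩ := hx
    refine ⟨psum P M y, ?_⟩
    change (psum P N * psum P M) y = psum P M y
    rw [F1_psum_mul_psum hPi hPo h]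
  set K : Submodule ℂ H := (⨆ N, U N).topologicalClosure with hK
  have hKc : IsClosed (K : Set H) := Submodule.isClosed_topologicalClosure _
  have : CompleteSpace K := hKc.completeSpace_coe
  set Q : H →L[ℂ] H := K.starProjection with hQ
  have hlim : ∀ x, Tendsto (fun N => psum P N x) atTop (𝓝 (Q x)) := by
    intro x
    have h1 := Submodule.starProjection_tendsto_closure_iSup U hmono x
    refine h1.congr fun N => ?_
    have h2 := congrArg (fun X : H →L[ℂ] H => X x) (heq N)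
    exact h2.symm
  have hQs : star Q = Q := (isSelfAdjoint_starProjection K).star_eq
  have hQi : Q * Q = Q := K.isIdempotentElem_starProjection
  have hEQ : ∀ N, psum P N * Q = psum P N := by
    intro N
    refine ContinuousLinearMap.ext fun x => ?_
    change psum P N (Q x) = psum P N x
    have h1 : Tendsto (fun M => psum P N (psum P M x)) atTop (𝓝 (psum P N (Q x))) :=
      ((psum P N).continuous.tendsto _).comp (hlim x)
    refine tendsto_nhds_unique h1 (tendsto_const_nhds.congr' ?_)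
    filter_upwards [eventually_ge_atTop N] with M hM
    have h2 := congrArg star (F1_psum_mul_psum hPi hPo hM)
    rw [star_mul, F1_psum_star hPs, F1_psum_star hPs] at h2
    exact (congrArg (fun X : H →L[ℂ] H => X x) h2).symm
  have hQE : ∀ N, Q * psum P N = psum P N := by
    intro N
    have h1 := congrArg star (hEQ N)
    rwa [star_mul, hQs, F1_psum_star hPs] at h1
  have hTE : ∀ N x, T (psum P N x) = ∑ n ∈ Finset.range N, ((lam n : ℝ) : ℂ) • P n x := by
    intro N x
    rw [F1_psum_apply, map_sum]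
    refine Finset.sum_congr rfl fun n _ => ?_
    exact congrArg (fun X : H →L[ℂ] H => X x) (hTP n)
  -- `Q` commutes with `T`
  have hQTQ : Q * T * Q = T * Q := by
    refine ContinuousLinearMap.ext fun x => ?_
    change Q (T (Q x)) = T (Q x)
    have h1 : Tendsto (fun N => Q (T (psum P N x))) atTop (𝓝 (Q (T (Q x)))) :=
      ((Q.continuous.comp T.continuous).tendsto _).comp (hlim x)
    have h2 : Tendsto (fun N => T (psum P N x)) atTop (𝓝 (T (Q x))) :=
      (T.continuous.tendsto _).comp (hlim x)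
    refine tendsto_nhds_unique h1 (h2.congr fun N => ?_)
    rw [hTE, map_sum]
    refine Finset.sum_congr rfl fun n hn => ?_
    rw [map_smul]
    congr 1
    have h3 := F1_psum_mul hPi hPo (n + 1) n
    rw [if_pos (Nat.lt_succ_self n)] at h3
    have h4 : P n x = psum P (n + 1) (P n x) :=
      (congrArg (fun X : H →L[ℂ] H => X x) h3).symm
    have h5 : Q (psum P (n + 1) (P n x)) = psum P (n + 1) (P n x) :=
      congrArg (fun X : H →L[ℂ] H => X (P n x)) (hQE (n + 1))
    rw [h4, h5]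
  have hQT : Q * T = T * Q := by
    have h1 := congrArg star hQTQ
    rw [star_mul, star_mul, star_mul, hQs, hT.star_eq, ← mul_assoc, hQTQ] at h1
    exact h1.symm
  -- upper bound
  have hup : ∀ η : H, (inner ℂ (T (Q η)) (Q η)).re ≤ ε * ‖Q η‖ ^ 2 := by
    intro η
    have h1 : Tendsto (fun N => (inner ℂ (T (psum P N η)) (psum P N η)).re) atTop
        (𝓝 (inner ℂ (T (Q η)) (Q η)).re) := by
      refine (Complex.continuous_re.tendsto _).comp ?_
      exact ((T.continuous.tendsto _).comp (hlim η)).inner (hlim η)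
    have h2 : Tendsto (fun N => ε * ‖psum P N η‖ ^ 2) atTop (𝓝 (ε * ‖Q η‖ ^ 2)) :=
      (((hlim η).norm).pow 2).const_mul ε
    refine le_of_tendsto_of_tendsto' h1 h2 fun N => ?_
    rw [F1_norm_sq hPs hPi hPo, hTE, sum_inner, Complex.re_sum, Finset.mul_sum]
    refine Finset.sum_le_sum fun n hn => ?_
    rw [inner_smul_left, Complex.conj_ofReal, Complex.re_ofReal_mul]
    have h3 : inner ℂ (P n η) (psum P N η) = ((‖P n η‖ : ℂ)) ^ 2 := by
      have e0 : inner ℂ (P n η) (P n η) = ((‖P n η‖ : ℂ)) ^ 2 := inner_self_eq_norm_sq_to_K _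
      have h4 : psum P N (P n η) = P n η := by
        have h5 := F1_psum_mul hPi hPo N n
        rw [if_pos (Finset.mem_range.1 hn)] at h5
        exact congrArg (fun X : H →L[ℂ] H => X η) h5
      have h6 : P n (P n η) = P n η := congrArg (fun X : H →L[ℂ] H => X η) (hPi n)
      have h7 : inner ℂ (P n η) (psum P N η) = inner ℂ (P n η) η := by
        have h9 := F1_inner_star (psum P N) (P n η) η
        rw [F1_psum_star hPs, h4] at h9
        exact h9.symm
      have h8 : inner ℂ (P n η) (P n η) = inner ℂ (P n η) η := by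
        have h9 := F1_inner_star (P n) (P n η) η
        rw [(hPs n).star_eq, h6] at h9
        exact h9.symm
      rw [h7, ← h8, e0]
    rw [h3, ← Complex.ofReal_pow, Complex.ofReal_re]
    exact mul_le_mul_of_nonneg_right (hlam n) (sq_nonneg _)
  -- lower bound
  have hlow' : ∀ ξ : H, c₀ * (‖ξ‖ ^ 2 - ‖Q ξ‖ ^ 2) ≤ (inner ℂ (T ξ) ξ).re := by
    have hcl : IsClosed {ξ : H | c₀ * (‖ξ‖ ^ 2 - ‖Q ξ‖ ^ 2) ≤ (inner ℂ (T ξ) ξ).re} :=
      isClosed_le (by fun_prop) (by fun_prop)
    have hsub : D ⊆ {ξ : H | c₀ * (‖ξ‖ ^ 2 - ‖Q ξ‖ ^ 2) ≤ (inner ℂ (T ξ) ξ).re} := by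
      intro ξ hξ
      obtain ⟨N, hN⟩ := hlow ξ hξ
      refine le_trans (mul_le_mul_of_nonneg_left ?_ hc₀) hN
      rw [← F1_norm_sq hPs hPi hPo]
      have h1 : ‖psum P N ξ‖ ≤ ‖Q ξ‖ := by
        have h2 : psum P N ξ = psum P N (Q ξ) :=
          (congrArg (fun X : H →L[ℂ] H => X ξ) (hEQ N)).symm
        rw [h2]
        have h3 : ‖psum P N‖ ≤ 1 := by
          rw [heq N]
          exact Submodule.starProjection_norm_le _
        calc ‖psum P N (Q ξ)‖ ≤ ‖psum P N‖ * ‖Q ξ‖ := ContinuousLinearMap.le_opNorm _ _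
          _ ≤ 1 * ‖Q ξ‖ := mul_le_mul_of_nonneg_right h3 (norm_nonneg _)
          _ = ‖Q ξ‖ := one_mul _
      have h4 : ‖psum P N ξ‖ ^ 2 ≤ ‖Q ξ‖ ^ 2 := pow_le_pow_left₀ (norm_nonneg _) h1 2
      linarith
    intro ξ
    exact (closure_minimal hsub hcl) (hD ξ)
  have hfin : cfc (cutf ε c₀) T = Q := by
    refine F1_cfc T Q hT hQT hε hup fun η => ?_
    have h1 := hlow' ((1 - Q) η)
    have h2 : Q ((1 - Q) η) = 0 := by
      have h3 : Q * (1 - Q) = 0 := by rw [mul_sub, mul_one, hQi, sub_self]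
      exact congrArg (fun X : H →L[ℂ] H => X η) h3
    rwa [h2, norm_zero, zero_pow two_ne_zero, sub_zero] at h1
  rw [hfin]
  refine ⟨hQs, hQi, fun ξ => ?_⟩
  refine (hlim ξ).congr fun N => F1_psum_apply N ξ

end Main

end F

end P089
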