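import Vale.Agent.Lib.P089.Defs

/-!
# P089, part F, module F6: the ground state
-/

namespace P089

open scoped Classical

namespace F

section Abs

variable {E : Type*} [NormedAddCommGroup E] [InnerProductSpace ℝ E] [FiniteDimensional ℝ E]

/-- abstract ground state lemma -/
theorem ground_abs {T : E →ₗ[ℝ] E} (hT : T.IsSymmetric) {u : E} (hu : u ≠ 0) {ε cP : ℝ}
    (hε : ε < cP) (h0 : ∀ f, 0 ≤ inner ℝ (T f) f) (h1 : inner ℝ (T u) u ≤ ε * ‖u‖ ^ 2)
    (h2 : ∀ f, inner ℝ u f = 0 → cP * ‖f‖ ^ 2 ≤ inner ℝ (T f) f) :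
    ∃ (φ : E) (lam : ℝ), ‖φ‖ = 1 ∧ T φ = lam • φ ∧ 0 ≤ lam ∧ lam ≤ ε ∧
      ∀ f, cP * (‖f‖ ^ 2 - inner ℝ φ f ^ 2) ≤ inner ℝ (T f) f := by
  have hnt : Nontrivial E := ⟨⟨u, 0, hu⟩⟩
  have hev := hT.hasEigenvalue_iInf_of_finiteDimensional
  set lam : ℝ := ⨅ x : { x : E // x ≠ 0 }, RCLike.re (inner ℝ (T x) (x : E)) / ‖(x : E)‖ ^ 2
    with hlam
  obtain ⟨φ₀, hφ₀⟩ := hev.exists_hasEigenvector
  have hφ₀0 : φ₀ ≠ 0 := hφ₀.2
  have hTφ₀ : T φ₀ = lam • φ₀ := hφ₀.apply_eq_smul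
  have hn0 : ‖φ₀‖ ≠ 0 := norm_ne_zero_iff.2 hφ₀0
  set φ : E := (‖φ₀‖⁻¹ : ℝ) • φ₀ with hφ
  have hφ1 : ‖φ‖ = 1 := by
    rw [hφ, norm_smul, norm_inv, norm_norm, inv_mul_cancel₀ hn0]
  have hTφ : T φ = lam • φ := by
    rw [hφ, map_smul, hTφ₀, smul_comm]
  clear_value φ
  have hφφ : inner ℝ φ φ = (1 : ℝ) := by
    rw [real_inner_self_eq_norm_sq, hφ1, one_pow]
  have hl0 : 0 ≤ lam := by
    have h3 := h0 φ
    rwa [hTφ, real_inner_smul_left, hφφ, mul_one] at h3
  have hbdd : BddBelow (Set.range fun x : { x : E // x ≠ 0 } =>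
      RCLike.re (inner ℝ (T x) (x : E)) / ‖(x : E)‖ ^ 2) := by
    refine ⟨0, ?_⟩
    rintro _ ⟨x, rfl⟩
    exact div_nonneg (h0 x) (sq_nonneg _)
  have hle : lam ≤ ε := by
    have h3 : lam ≤ RCLike.re (inner ℝ (T u) u) / ‖u‖ ^ 2 := ciInf_le hbdd ⟨u, hu⟩
    have hu' : 0 < ‖u‖ ^ 2 := by positivity
    refine h3.trans ?_
    rw [div_le_iff₀ hu']
    exact h1
  refine ⟨φ, lam, hφ1, hTφ, hl0, hle, fun f => ?_⟩
  set a : ℝ := inner ℝ φ f with ha
  set g : E := f - a • φ with hg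
  have hφg : inner ℝ φ g = 0 := by
    rw [hg, inner_sub_right, real_inner_smul_right, hφφ, mul_one, ← ha, sub_self]
  have hgφ : inner ℝ g φ = 0 := by rw [real_inner_comm]; exact hφg
  have hf : f = a • φ + g := by rw [hg]; abel
  have hTg : inner ℝ (T g) φ = 0 := by
    rw [hT, hTφ, real_inner_smul_right, hgφ, mul_zero]
  -- form on combinations
  have hform : ∀ p q : ℝ, inner ℝ (T (p • φ + q • g)) (p • φ + q • g) =
      lam * p ^ 2 + q ^ 2 * inner ℝ (T g) g := by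
    intro p q
    rw [map_add, map_smul, map_smul, hTφ]
    simp only [inner_add_left, inner_add_right, real_inner_smul_left, real_inner_smul_right,
      hφφ, hφg, hTg]
    ring
  have hnorm : ∀ p q : ℝ, ‖p • φ + q • g‖ ^ 2 = p ^ 2 + q ^ 2 * ‖g‖ ^ 2 := by
    intro p q
    rw [← real_inner_self_eq_norm_sq, ← real_inner_self_eq_norm_sq]
    simp only [inner_add_left, inner_add_right, real_inner_smul_left, real_inner_smul_right,
      hφφ, hφg, hgφ]
    ring
  have hmain : cP * ‖g‖ ^ 2 ≤ inner ℝ (T g) g := by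
    by_contra hcon
    push Not at hcon
    set p : ℝ := inner ℝ u φ with hp
    set q : ℝ := inner ℝ u g with hq
    by_cases hq0 : q = 0
    · exact absurd (h2 g hq0) (not_le.2 hcon)
    · have h3 : inner ℝ u (q • φ + (-p) • g) = 0 := by
        rw [inner_add_right, real_inner_smul_right, real_inner_smul_right, ← hp, ← hq]
        ring
      have h4 := h2 _ h3
      rw [hform, hnorm] at h4
      have hq2 : 0 < q ^ 2 := by positivity
      have h5 : 0 < (cP - lam) * q ^ 2 := mul_pos (by linarith) hq2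
      have h6 : 0 ≤ p ^ 2 * (cP * ‖g‖ ^ 2 - inner ℝ (T g) g) :=
        mul_nonneg (sq_nonneg _) (by linarith)
      nlinarith
  have e1 := hform a 1
  have e2 := hnorm a 1
  rw [one_smul, ← hf, one_pow, one_mul] at e1 e2
  rw [e1, e2]
  have h7 : 0 ≤ lam * a ^ 2 := mul_nonneg hl0 (sq_nonneg _)
  linarith

end Abs

variable {S : Type} [Fintype S] {d : ℕ} (Fm : Fam S d)

/-- the neighbour, `x` itself if there is none -/
private noncomputable def F6_nb (x : Fm.P) (s : S) : Fm.P := (Fm.nb x s).getD x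

private theorem F6_idx {x y : Fm.P} {s : S} (h : Fm.nb x s = some y) : Fm.idx x = Fm.idx y := by
  refine (Fm.conn x y).2 ⟨[s], ?_⟩
  simp [walk, h]

private theorem F6_mem {n : ℕ} {x y : Fm.P} {s : S} (h : Fm.nb x s = some y) :
    x ∈ Fm.X n ↔ y ∈ Fm.X n := by
  rw [Fm.memX, Fm.memX, F6_idx Fm h]

/-- symmetry of the adjacency form, with a weight -/
private theorem F6_swap (n : ℕ) (F : Fm.P → Fm.P → ℝ) (s : S) :
    ∑ x ∈ Fm.X n, (match Fm.nb x s with | some y => F x y | none => 0) =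
      ∑ x ∈ Fm.X n, (match Fm.nb x s with | some y => F y x | none => 0) := by
  refine Finset.sum_bij' (fun x _ => F6_nb Fm x s) (fun x _ => F6_nb Fm x s) ?_ ?_ ?_ ?_ ?_
  · intro x hx
    unfold F6_nb
    cases h : Fm.nb x s with
    | none => exact hx
    | some y => exact (F6_mem Fm h).1 hx
  · intro x hx
    unfold F6_nb
    cases h : Fm.nb x s with
    | none => exact hx
    | some y => exact (F6_mem Fm h).1 hx
  · intro x hx
    unfold F6_nb
    cases h : Fm.nb x s with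
    | none => simp [h]
    | some y => simp [Fm.symm _ _ _ h]
  · intro x hx
    unfold F6_nb
    cases h : Fm.nb x s with
    | none => simp [h]
    | some y => simp [Fm.symm _ _ _ h]
  · intro x hx
    unfold F6_nb
    cases h : Fm.nb x s with
    | none => simp [h]
    | some y => simp [Fm.symm _ _ _ h]

private theorem F6_swap2 (n : ℕ) (F : Fm.P → Fm.P → ℝ) :
    ∑ x ∈ Fm.X n, ∑ s, (match Fm.nb x s with | some y => F x y | none => 0) =
      ∑ x ∈ Fm.X n, ∑ s, (match Fm.nb x s with | some y => F y x | none => 0) :=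
  Finset.sum_comm.trans ((Finset.sum_congr rfl fun s _ => F6_swap Fm n F s).trans Finset.sum_comm)

private theorem F6_nbv_swap (n : ℕ) (f g : Fm.P → ℝ) :
    ∑ x ∈ Fm.X n, ∑ s, f x * Fm.nbv g x s = ∑ x ∈ Fm.X n, ∑ s, g x * Fm.nbv f x s := by
  have h := F6_swap2 Fm n (fun x y => f x * g y)
  have e1 : ∀ x s, f x * Fm.nbv g x s =
      (match Fm.nb x s with | some y => f x * g y | none => 0) := by
    intro x s
    unfold PG.nbv
    cases Fm.nb x s <;> simp
  have e2 : ∀ x s, g x * Fm.nbv f x s =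
      (match Fm.nb x s with | some y => f y * g x | none => 0) := by
    intro x s
    unfold PG.nbv
    cases Fm.nb x s <;> simp [mul_comm]
  simp only [e1, e2]
  exact h

private theorem F6_nonneg (n : ℕ) (f : Fm.P → ℝ) :
    0 ≤ ∑ x ∈ Fm.X n, (d * f x ^ 2 - ∑ s, f x * Fm.nbv f x s) := by
  have h1 : ∀ x s, f x * Fm.nbv f x s ≤
      (match Fm.nb x s with | some y => f x ^ 2 / 2 + f y ^ 2 / 2 | none => 0) := by
    intro x s
    unfold PG.nbv
    cases h : Fm.nb x s with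
    | none => simp
    | some y =>
      simp only
      nlinarith [sq_nonneg (f x - f y)]
  have h2 : ∑ x ∈ Fm.X n, ∑ s, f x * Fm.nbv f x s ≤ ∑ x ∈ Fm.X n, ∑ s : S,
      (match Fm.nb x s with | some _ => f x ^ 2 | none => 0) := by
    calc ∑ x ∈ Fm.X n, ∑ s, f x * Fm.nbv f x s
        ≤ ∑ x ∈ Fm.X n, ∑ s,
          (match Fm.nb x s with | some y => f x ^ 2 / 2 + f y ^ 2 / 2 | none => 0) :=
          Finset.sum_le_sum fun x _ => Finset.sum_le_sum fun s _ => h1 x s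
      _ = ∑ x ∈ Fm.X n, ∑ s, ((match Fm.nb x s with | some y => f x ^ 2 / 2 | none => 0) +
            (match Fm.nb x s with | some y => f y ^ 2 / 2 | none => 0)) := by
          refine Finset.sum_congr rfl fun x _ => Finset.sum_congr rfl fun s _ => ?_
          cases Fm.nb x s <;> simp
      _ = ∑ x ∈ Fm.X n, ∑ s : S, (match Fm.nb x s with | some _ => f x ^ 2 | none => 0) := by
          simp only [Finset.sum_add_distrib]
          rw [F6_swap2 Fm n (fun x y => f y ^ 2 / 2), ← Finset.sum_add_distrib]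
          refine Finset.sum_congr rfl fun x _ => ?_
          rw [← Finset.sum_add_distrib]
          refine Finset.sum_congr rfl fun s _ => ?_
          cases Fm.nb x s <;> simp
  have h3 : ∀ x, ∑ s : S, (match Fm.nb x s with | some _ => f x ^ 2 | none => 0) ≤
      d * f x ^ 2 := by
    intro x
    have h4 : ∑ s : S, (match Fm.nb x s with | some _ => f x ^ 2 | none => 0) =
        ((Fm.toPG.ty x).card : ℝ) * f x ^ 2 := by
      unfold PG.ty
      rw [Finset.card_filter, Nat.cast_sum, Finset.sum_mul]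
      refine Finset.sum_congr rfl fun s _ => ?_
      cases Fm.nb x s <;> simp
    rw [h4]
    exact mul_le_mul_of_nonneg_right (by exact_mod_cast Fm.deg x) (sq_nonneg _)
  rw [Finset.sum_sub_distrib, sub_nonneg]
  exact h2.trans (Finset.sum_le_sum fun x _ => h3 x)

/-- extension by zero -/
private noncomputable def F6_ext (n : ℕ) (f : EuclideanSpace ℝ {x // x ∈ Fm.X n}) (p : Fm.P) : ℝ :=
  if h : p ∈ Fm.X n then f ⟨p, h⟩ else 0

private theorem F6_ext_sub (n : ℕ) (f : EuclideanSpace ℝ {x // x ∈ Fm.X n})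
    (x : {x // x ∈ Fm.X n}) : F6_ext Fm n f x = f x := by
  unfold F6_ext
  rw [dif_pos x.2]

private theorem F6_sum (n : ℕ) (F : Fm.P → ℝ) :
    ∑ x : {x // x ∈ Fm.X n}, F x = ∑ x ∈ Fm.X n, F x :=
  Finset.sum_coe_sort (Fm.X n) F

private theorem F6_nbv_add (n : ℕ) (f g : EuclideanSpace ℝ {x // x ∈ Fm.X n}) (x : Fm.P) (s : S) :
    Fm.nbv (F6_ext Fm n (f + g)) x s = Fm.nbv (F6_ext Fm n f) x s + Fm.nbv (F6_ext Fm n g) x s := by
  unfold PG.nbv F6_ext
  cases Fm.nb x s with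
  | none => simp
  | some y =>
    by_cases h : y ∈ Fm.X n <;> simp [h]

private theorem F6_nbv_smul (n : ℕ) (c : ℝ) (f : EuclideanSpace ℝ {x // x ∈ Fm.X n}) (x : Fm.P)
    (s : S) : Fm.nbv (F6_ext Fm n (c • f)) x s = c * Fm.nbv (F6_ext Fm n f) x s := by
  unfold PG.nbv F6_ext
  cases Fm.nb x s with
  | none => simp
  | some y =>
    by_cases h : y ∈ Fm.X n <;> simp [h]

/-- the operator -/
private noncomputable def F6_T (n : ℕ) :
    EuclideanSpace ℝ {x // x ∈ Fm.X n} →ₗ[ℝ] EuclideanSpace ℝ {x // x ∈ Fm.X n} where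
  toFun f := WithLp.toLp 2 fun x => d * f x - ∑ s, Fm.nbv (F6_ext Fm n f) x s
  map_add' f g := by
    ext x
    simp only [PiLp.add_apply, F6_nbv_add, Finset.sum_add_distrib]
    ring
  map_smul' c f := by
    ext x
    simp only [PiLp.smul_apply, F6_nbv_smul, smul_eq_mul, RingHom.id_apply, ← Finset.mul_sum]
    ring

private theorem F6_T_apply (n : ℕ) (f : EuclideanSpace ℝ {x // x ∈ Fm.X n})
    (x : {x // x ∈ Fm.X n}) :
    F6_T Fm n f x = d * f x - ∑ s, Fm.nbv (F6_ext Fm n f) x s := rfl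

private theorem F6_inner (n : ℕ) (f g : EuclideanSpace ℝ {x // x ∈ Fm.X n}) :
    inner ℝ f g = ∑ x ∈ Fm.X n, F6_ext Fm n f x * F6_ext Fm n g x := by
  rw [← F6_sum Fm n (fun x => F6_ext Fm n f x * F6_ext Fm n g x), PiLp.inner_apply]
  refine Finset.sum_congr rfl fun x _ => ?_
  rw [F6_ext_sub, F6_ext_sub]
  simp [mul_comm]

private theorem F6_inner_T (n : ℕ) (f g : EuclideanSpace ℝ {x // x ∈ Fm.X n}) :
    inner ℝ (F6_T Fm n f) g = ∑ x ∈ Fm.X n, (d * (F6_ext Fm n f x * F6_ext Fm n g x) -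
      ∑ s, F6_ext Fm n g x * Fm.nbv (F6_ext Fm n f) x s) := by
  rw [← F6_sum Fm n (fun x => d * (F6_ext Fm n f x * F6_ext Fm n g x) -
      ∑ s, F6_ext Fm n g x * Fm.nbv (F6_ext Fm n f) x s), PiLp.inner_apply]
  refine Finset.sum_congr rfl fun x _ => ?_
  rw [F6_ext_sub, F6_ext_sub, F6_T_apply, ← Finset.mul_sum]
  simp only [RCLike.inner_apply, conj_trivial]
  ring

/-- the ground state of `X n` -/
theorem ground_state {cP ε : ℝ} (hP : Fm.Poin cP) (hB : Fm.B3 ε) (hε : ε < cP) (n : ℕ) :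
    ∃ (φ : Fm.P → ℝ) (lam : ℝ), 0 ≤ lam ∧ lam ≤ ε ∧ ∑ x ∈ Fm.X n, φ x ^ 2 = 1 ∧
      (∀ x ∈ Fm.X n, d * φ x - ∑ s, Fm.nbv φ x s = lam * φ x) ∧
      ∀ f : Fm.P → ℝ, cP * (∑ x ∈ Fm.X n, f x ^ 2 - (∑ x ∈ Fm.X n, φ x * f x) ^ 2) ≤
        ∑ x ∈ Fm.X n, (d * f x ^ 2 - ∑ s, f x * Fm.nbv f x s) := by
  have hsym : (F6_T Fm n).IsSymmetric := by
    intro f g
    rw [F6_inner_T, real_inner_comm, F6_inner_T]
    simp only [Finset.sum_sub_distrib]
    rw [F6_nbv_swap Fm n (F6_ext Fm n g) (F6_ext Fm n f)]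
    congr 1
    refine Finset.sum_congr rfl fun x _ => ?_
    ring
  set u : EuclideanSpace ℝ {x // x ∈ Fm.X n} := WithLp.toLp 2 fun _ => 1 with hu
  have hext1 : ∀ x ∈ Fm.X n, F6_ext Fm n u x = 1 := by
    intro x hx
    unfold F6_ext
    rw [dif_pos hx]
  have hu0 : u ≠ 0 := by
    obtain ⟨x, hx⟩ := Fm.nonempty n
    intro h0
    have h1 := hext1 x hx
    rw [h0] at h1
    unfold F6_ext at h1
    rw [dif_pos hx] at h1
    exact zero_ne_one h1
  have hnb1 : ∀ x ∈ Fm.X n, ∀ s, Fm.nbv (F6_ext Fm n u) x s =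
      if ∃ y ∈ Fm.X n, Fm.nb x s = some y then 1 else 0 := by
    intro x hx s
    unfold PG.nbv
    cases h : Fm.nb x s with
    | none => simp
    | some y =>
      have hy : y ∈ Fm.X n := (F6_mem Fm h).1 hx
      simp [hext1 y hy, hy]
  have hnorm : ∀ f : EuclideanSpace ℝ {x // x ∈ Fm.X n}, ‖f‖ ^ 2 =
      ∑ x ∈ Fm.X n, F6_ext Fm n f x ^ 2 := by
    intro f
    rw [← real_inner_self_eq_norm_sq, F6_inner]
    exact Finset.sum_congr rfl fun x _ => (sq _).symm
  have hfT : ∀ f : EuclideanSpace ℝ {x // x ∈ Fm.X n}, inner ℝ (F6_T Fm n f) f =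
      ∑ x ∈ Fm.X n, (d * F6_ext Fm n f x ^ 2 -
        ∑ s, F6_ext Fm n f x * Fm.nbv (F6_ext Fm n f) x s) := by
    intro f
    rw [F6_inner_T]
    exact Finset.sum_congr rfl fun x _ => by rw [sq]
  have h0 : ∀ f, 0 ≤ inner ℝ (F6_T Fm n f) f := fun f => by
    rw [hfT]
    exact F6_nonneg Fm n _
  have h1 : inner ℝ (F6_T Fm n u) u ≤ ε * ‖u‖ ^ 2 := by
    rw [hfT, hnorm]
    have e1 : ∑ x ∈ Fm.X n, F6_ext Fm n u x ^ 2 = ((Fm.X n).card : ℝ) := by
      rw [Finset.sum_congr rfl fun x hx => by rw [hext1 x hx, one_pow]]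
      simp
    have e2 : ∑ x ∈ Fm.X n, (d * F6_ext Fm n u x ^ 2 -
        ∑ s, F6_ext Fm n u x * Fm.nbv (F6_ext Fm n u) x s) =
        d * ((Fm.X n).card : ℝ) - Fm.darts (Fm.X n) := by
      rw [Finset.sum_sub_distrib, ← Finset.mul_sum, e1]
      congr 1
      unfold PG.darts
      rw [Finset.card_filter, Finset.sum_product, Nat.cast_sum]
      refine Finset.sum_congr rfl fun x hx => ?_
      rw [Nat.cast_sum]
      refine Finset.sum_congr rfl fun s _ => ?_
      rw [hext1 x hx, one_mul, hnb1 x hx]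
      push_cast
      rfl
    rw [e2, e1]
    have := hB n
    linarith
  have h2 : ∀ f, inner ℝ u f = 0 → cP * ‖f‖ ^ 2 ≤ inner ℝ (F6_T Fm n f) f := by
    intro f hf
    rw [hfT, hnorm]
    refine hP n _ ?_
    rw [F6_inner] at hf
    rw [← hf]
    refine Finset.sum_congr rfl fun x hx => ?_
    rw [hext1 x hx, one_mul]
  obtain ⟨φ, lam, hφ1, hTφ, hl0, hle, hmain⟩ := ground_abs hsym hu0 hε h0 h1 h2
  refine ⟨F6_ext Fm n φ, lam, hl0, hle, ?_, ?_, ?_⟩
  · rw [← hnorm, hφ1, one_pow]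
  · intro x hx
    have h3 := congrArg (fun v : EuclideanSpace ℝ {x // x ∈ Fm.X n} => v ⟨x, hx⟩) hTφ
    simp only [F6_T_apply, PiLp.smul_apply, smul_eq_mul] at h3
    have h4 : F6_ext Fm n φ x = φ ⟨x, hx⟩ := F6_ext_sub Fm n φ ⟨x, hx⟩
    rw [h4]
    exact h3
  · intro f
    set f' : EuclideanSpace ℝ {x // x ∈ Fm.X n} := WithLp.toLp 2 fun x => f x with hf'
    have h3 := hmain f'
    have hext : ∀ x ∈ Fm.X n, F6_ext Fm n f' x = f x := by
      intro x hx
      unfold F6_ext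
      rw [dif_pos hx]
    have hnb : ∀ x ∈ Fm.X n, ∀ s, Fm.nbv (F6_ext Fm n f') x s = Fm.nbv f x s := by
      intro x hx s
      unfold PG.nbv
      cases h : Fm.nb x s with
      | none => rfl
      | some y => exact hext y ((F6_mem Fm h).1 hx)
    rw [hfT, hnorm, F6_inner] at h3
    have e1 : ∑ x ∈ Fm.X n, F6_ext Fm n f' x ^ 2 = ∑ x ∈ Fm.X n, f x ^ 2 :=
      Finset.sum_congr rfl fun x hx => by rw [hext x hx]
    have e2 : ∑ x ∈ Fm.X n, F6_ext Fm n φ x * F6_ext Fm n f' x =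
        ∑ x ∈ Fm.X n, F6_ext Fm n φ x * f x :=
      Finset.sum_congr rfl fun x hx => by rw [hext x hx]
    have e3 : ∑ x ∈ Fm.X n, (d * F6_ext Fm n f' x ^ 2 -
        ∑ s, F6_ext Fm n f' x * Fm.nbv (F6_ext Fm n f') x s) =
        ∑ x ∈ Fm.X n, (d * f x ^ 2 - ∑ s, f x * Fm.nbv f x s) :=
      Finset.sum_congr rfl fun x hx => by
        rw [hext x hx]
        congr 1
        exact Finset.sum_congr rfl fun s _ => by rw [hnb x hx]
    rw [e1, e2, e3] at h3
    exact h3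

end F

end P089
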