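import Vale.Agent.Lib.P089.Interface2

/-!
# P089, part F, module PF1: Parseval and support of the transform (`PartF1`)
-/

namespace P089

open scoped Classical

noncomputable section

namespace PF1

open Setup (sgn)

theorem sgn_zero : sgn 0 = 1 := if_pos rfl

theorem sgn_one : sgn 1 = -1 := if_neg (by decide)

theorem sgn_conj (a : ZMod 2) : (starRingEnd ℂ) (sgn a) = sgn a := by
  rw [sgn]
  split_ifs <;> simp

/-- characters: a finite set of functionals which is orthogonal on a finite set of vectors -/
theorem exists_chars {A : Type} [AddCommGroup A] [Module (ZMod 2) A] (F : Finset A) :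
    ∃ C : Finset (A →ₗ[ZMod 2] ZMod 2), C.Nonempty ∧
      ∀ a ∈ F, ∑ χ ∈ C, sgn (χ a) = if a = 0 then (C.card : ℂ) else 0 := by
  set W : Submodule (ZMod 2) A := Submodule.span (ZMod 2) (F : Set A) with hW
  have : Module.Finite (ZMod 2) W := Module.Finite.span_finset (ZMod 2) F
  have : Finite W := Module.finite_of_finite (ZMod 2)
  have : Finite (W →ₗ[ZMod 2] ZMod 2) :=
    Finite.of_injective (fun f : W →ₗ[ZMod 2] ZMod 2 => (f : W → ZMod 2)) DFunLike.coe_injective
  have : Fintype (W →ₗ[ZMod 2] ZMod 2) := Fintype.ofFinite _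
  choose ext hext using fun f : W →ₗ[ZMod 2] ZMod 2 => LinearMap.exists_extend f
  have hinj : Function.Injective ext := by
    intro f g h
    rw [← hext f, ← hext g, h]
  refine ⟨Finset.univ.image ext, ⟨ext 0, Finset.mem_image_of_mem _ (Finset.mem_univ _)⟩,
    fun a ha => ?_⟩
  have haW : a ∈ W := Submodule.subset_span ha
  have happ : ∀ f : W →ₗ[ZMod 2] ZMod 2, ext f a = f ⟨a, haW⟩ := by
    intro f
    have := LinearMap.congr_fun (hext f) ⟨a, haW⟩
    exact this
  rw [Finset.sum_image fun f _ g _ h => hinj h, Finset.card_image_of_injective _ hinj]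
  simp only [happ]
  split_ifs with h0
  · subst h0
    have h1 : (⟨0, haW⟩ : W) = 0 := rfl
    simp only [h1, map_zero, sgn_zero]
    rw [Finset.sum_const, nsmul_eq_mul, mul_one]
  · have hne : (⟨a, haW⟩ : W) ≠ 0 := fun h => h0 (congrArg Subtype.val h)
    obtain ⟨f0, hf0⟩ : ∃ f0 : Module.Dual (ZMod 2) W, f0 ⟨a, haW⟩ ≠ 0 := by
      by_contra hcon
      push Not at hcon
      exact hne ((Module.forall_dual_apply_eq_zero_iff (ZMod 2) _).mp hcon)
    have hf1 : f0 ⟨a, haW⟩ = 1 := by
      have key : ∀ c : ZMod 2, c ≠ 0 → c = 1 := by decide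
      exact key _ hf0
    have h2 : ∑ f : W →ₗ[ZMod 2] ZMod 2, sgn (f ⟨a, haW⟩)
        = ∑ f : W →ₗ[ZMod 2] ZMod 2, sgn ((f + f0) ⟨a, haW⟩) :=
      (Equiv.sum_comp (Equiv.addRight (f0 : W →ₗ[ZMod 2] ZMod 2))
        fun f : W →ₗ[ZMod 2] ZMod 2 => sgn (f ⟨a, haW⟩)).symm
    have h3 : ∀ f : W →ₗ[ZMod 2] ZMod 2, sgn ((f + f0) ⟨a, haW⟩) = -sgn (f ⟨a, haW⟩) := by
      intro f
      rw [LinearMap.add_apply, Setup.sgn_add, hf1, sgn_one, mul_neg_one]
    simp only [h3, Finset.sum_neg_distrib] at h2
    have h4 : (2 : ℂ) * ∑ f : W →ₗ[ZMod 2] ZMod 2, sgn (f ⟨a, haW⟩) = 0 := by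
      rw [two_mul]
      nth_rewrite 1 [h2]
      exact neg_add_cancel _
    exact (mul_eq_zero.mp h4).resolve_left two_ne_zero

variable (St : Setup)

/-- formula for the transform -/
theorem hat_eq (χ : St.A →ₗ[ZMod 2] ZMod 2) (x : MonoidAlgebra ℂ St.G) (v : St.Gm) :
    St.hat χ x v = ∑ g ∈ x.coeff.support, x.coeff g *
      (sgn (χ (St.actA v (Multiplicative.toAdd g.left))) * if v * g.right = 1 then 1 else 0) := by
  rw [Setup.hat, Setup.rho, MonoidAlgebra.lift_apply, Finsupp.sum, LinearMap.sum_apply,
    Finset.sum_apply]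
  refine Finset.sum_congr rfl fun g _ => ?_
  rw [LinearMap.smul_apply, Pi.smul_apply, smul_eq_mul]
  congr 1
  change sgn (χ (St.actA v (Multiplicative.toAdd g.left))) * (Pi.single 1 1 : St.Gm → ℂ) (v * g.right)
    = _
  congr 1
  rw [Pi.single_apply]

theorem hat_support (χ : St.A →ₗ[ZMod 2] ZMod 2) (x : MonoidAlgebra ℂ St.G) :
    {v | St.hat χ x v ≠ 0} ⊆ (x.coeff.support.image fun g => g.right⁻¹ : Finset St.Gm) := by
  intro v hv
  by_contra hcon
  apply hv
  rw [hat_eq]
  refine Finset.sum_eq_zero fun g hg => ?_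
  rw [if_neg, mul_zero, mul_zero]
  intro h
  apply hcon
  exact Finset.mem_coe.mpr (Finset.mem_image.mpr ⟨g, hg, inv_eq_of_mul_eq_one_left h⟩)

/-- the double sum -/
theorem parseval (Xs : Finset (MonoidAlgebra ℂ St.G)) :
    ∃ C : Finset (St.A →ₗ[ZMod 2] ZMod 2), C.Nonempty ∧
      ∀ x ∈ Xs, ∀ y ∈ Xs, (C.card : ℂ) * inner ℂ (iota x) (iota y) =
        ∑ χ ∈ C, ∑ᶠ v, (starRingEnd ℂ) (St.hat χ x v) * St.hat χ y v := by
  obtain ⟨C, hC, hchar⟩ := exists_chars (A := St.A)
    (Xs.biUnion fun x => Xs.biUnion fun y => x.coeff.support.biUnion fun g =>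
      y.coeff.support.image fun g' => St.actA g.right⁻¹
        (Multiplicative.toAdd g.left + Multiplicative.toAdd g'.left))
  refine ⟨C, hC, fun x hx y hy => ?_⟩
  set T : Finset St.Gm := x.coeff.support.image fun g => g.right⁻¹ with hT
  -- the finsum is a sum over `T`
  have h1 : ∀ χ : St.A →ₗ[ZMod 2] ZMod 2,
      ∑ᶠ v, (starRingEnd ℂ) (St.hat χ x v) * St.hat χ y v
        = ∑ v ∈ T, (starRingEnd ℂ) (St.hat χ x v) * St.hat χ y v := by
    intro χ
    refine finsum_eq_sum_of_support_subset _ fun v hv => ?_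
    apply hat_support St χ x
    intro h0
    apply hv
    change (starRingEnd ℂ) (St.hat χ x v) * St.hat χ y v = 0
    rw [h0, map_zero, zero_mul]
  simp only [h1]
  rw [Finset.sum_comm]
  -- expand the transforms
  have h2 : ∀ (v : St.Gm) (χ : St.A →ₗ[ZMod 2] ZMod 2),
      (starRingEnd ℂ) (St.hat χ x v) * St.hat χ y v
        = ∑ g ∈ x.coeff.support, ∑ g' ∈ y.coeff.support,
          ((starRingEnd ℂ) (x.coeff g) * y.coeff g' *
            ((if v * g.right = 1 then 1 else 0) * (if v * g'.right = 1 then 1 else 0))) *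
          sgn (χ (St.actA v (Multiplicative.toAdd g.left + Multiplicative.toAdd g'.left))) := by
    intro v χ
    rw [hat_eq, hat_eq, map_sum, Finset.sum_mul_sum]
    refine Finset.sum_congr rfl fun g _ => Finset.sum_congr rfl fun g' _ => ?_
    rw [map_mul, map_mul, sgn_conj, map_add (St.actA v), map_add χ, Setup.sgn_add]
    have h3 : (starRingEnd ℂ) (if v * g.right = 1 then (1 : ℂ) else 0)
        = if v * g.right = 1 then 1 else 0 := by
      split_ifs <;> simp
    rw [h3]
    ring
  have h4 : ∀ v ∈ T, ∑ χ ∈ C, (starRingEnd ℂ) (St.hat χ x v) * St.hat χ y v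
      = ∑ g ∈ x.coeff.support, ∑ g' ∈ y.coeff.support,
        (if v * g.right = 1 ∧ g' = g then
          (C.card : ℂ) * ((starRingEnd ℂ) (x.coeff g) * y.coeff g) else 0) := by
    intro v _
    simp only [h2]
    rw [Finset.sum_comm]
    refine Finset.sum_congr rfl fun g hg => ?_
    rw [Finset.sum_comm]
    refine Finset.sum_congr rfl fun g' hg' => ?_
    rw [← Finset.mul_sum]
    by_cases hr : v * g.right = 1
    · have hv : v = g.right⁻¹ := eq_inv_of_mul_eq_one_left hr
      by_cases hr' : v * g'.right = 1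
      · rw [if_pos hr, if_pos hr', mul_one, mul_one]
        have hmem : St.actA v (Multiplicative.toAdd g.left + Multiplicative.toAdd g'.left) ∈
            Xs.biUnion fun x => Xs.biUnion fun y => x.coeff.support.biUnion fun g =>
              y.coeff.support.image fun g' => St.actA g.right⁻¹
                (Multiplicative.toAdd g.left + Multiplicative.toAdd g'.left) := by
          rw [hv]
          refine Finset.mem_biUnion.mpr ⟨x, hx, Finset.mem_biUnion.mpr ⟨y, hy,
            Finset.mem_biUnion.mpr ⟨g, hg, Finset.mem_image.mpr ⟨g', hg', rfl⟩⟩⟩⟩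
        rw [hchar _ hmem]
        have hiff : St.actA v (Multiplicative.toAdd g.left + Multiplicative.toAdd g'.left) = 0 ↔
            g' = g := by
          rw [LinearEquiv.map_eq_zero_iff]
          constructor
          · intro h
            have hl : g'.left = g.left := by
              have h5 : Multiplicative.toAdd g.left = Multiplicative.toAdd g'.left := by
                have h6 := eq_neg_of_add_eq_zero_left h
                have h7 : ∀ a : St.A, -a = a := fun a => by
                  have h8 : a + a = 0 := by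
                    rw [← two_smul (ZMod 2) a]
                    have : (2 : ZMod 2) = 0 := by decide
                    rw [this, zero_smul]
                  exact neg_eq_of_add_eq_zero_left h8
                rw [h7] at h6
                exact h6
              exact (Multiplicative.toAdd.injective h5).symm
            have hrr : g'.right = g.right := by
              have h9 : g'.right = v⁻¹ := eq_inv_of_mul_eq_one_right hr'
              have h10 : g.right = v⁻¹ := eq_inv_of_mul_eq_one_right hr
              rw [h9, h10]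
            exact SemidirectProduct.ext hl hrr
          · intro h
            rw [h, ← two_smul (ZMod 2) (Multiplicative.toAdd g.left)]
            have : (2 : ZMod 2) = 0 := by decide
            rw [this, zero_smul]
        by_cases hgg : g' = g
        · rw [if_pos (hiff.mpr hgg), if_pos ⟨hr, hgg⟩, hgg]
          ring
        · rw [if_neg fun h => hgg (hiff.mp h), if_neg fun h => hgg h.2, mul_zero]
      · rw [if_neg hr', mul_zero, mul_zero, zero_mul, if_neg]
        rintro ⟨_, rfl⟩
        exact hr' hr
    · rw [if_neg hr, zero_mul, mul_zero, zero_mul, if_neg fun h => hr h.1]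
  rw [Finset.sum_congr rfl h4, Finset.sum_comm, inner_iota, Finset.mul_sum]
  refine Finset.sum_congr rfl fun g hg => ?_
  have h5 : ∀ v : St.Gm, ∑ g' ∈ y.coeff.support, (if v * g.right = 1 ∧ g' = g then
      (C.card : ℂ) * ((starRingEnd ℂ) (x.coeff g) * y.coeff g) else 0)
      = if v = g.right⁻¹ then (C.card : ℂ) * ((starRingEnd ℂ) (x.coeff g) * y.coeff g) else 0 := by
    intro v
    by_cases hv : v = g.right⁻¹
    · have hr : v * g.right = 1 := by rw [hv, inv_mul_cancel]
      rw [if_pos hv]
      by_cases hgy : g ∈ y.coeff.support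
      · rw [Finset.sum_eq_single g]
        · rw [if_pos ⟨hr, rfl⟩]
        · intro g' _ hne
          rw [if_neg fun h => hne h.2]
        · intro h
          exact absurd hgy h
      · rw [Finsupp.notMem_support_iff.mp hgy, mul_zero, mul_zero]
        refine Finset.sum_eq_zero fun g' _ => ?_
        rw [ite_self]
    · rw [if_neg hv]
      refine Finset.sum_eq_zero fun g' _ => ?_
      rw [if_neg fun h => hv (eq_inv_of_mul_eq_one_left h.1)]
  simp only [h5]
  rw [Finset.sum_ite_eq' T g.right⁻¹, if_pos]
  exact Finset.mem_image_of_mem _ hg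

end PF1

theorem partF1 : PartF1 := by
  intro St
  refine ⟨fun χ x => ?_, PF1.parseval St⟩
  have h := PF1.hat_support St χ x
  refine ⟨(Finset.finite_toSet _).subset h, ?_⟩
  calc {v | St.hat χ x v ≠ 0}.ncard
      ≤ ((x.coeff.support.image fun g => g.right⁻¹ : Finset St.Gm) : Set St.Gm).ncard :=
        Set.ncard_le_ncard h (Finset.finite_toSet _)
    _ = (x.coeff.support.image fun g => g.right⁻¹).card := Set.ncard_coe_finset _
    _ ≤ x.coeff.support.card := Finset.card_image_le

end

end P089
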